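import Vale.Agent.Lib.P007.Main
import Vale.Agent.Lib.P007.helper59.RealRoots
import Vale.Agent.Lib.P007.helper59.Sanity

namespace Vale.Agent.Lib.P007

open Matrix MeasureTheory Topology Filter

/-- For `d, e ≥ 2`: orders in a totally real field of degree `e * d`, all containing a root of
`towerG e`, with discriminants tending to infinity. -/
theorem composite_data (d e : ℕ) (hd : 2 ≤ d) (he : 2 ≤ e) :
    ∃ D : ℕ → OrderDatum (e * d),
      (∀ i, ∃ r ∈ (D i).O, Polynomial.aeval r (towerG e) = 0) ∧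
      Tendsto (fun i => |Algebra.discr ℚ (D i).basis|) atTop atTop := by
  obtain ⟨ρ, hρ, hρ0⟩ := exists_real_roots d e (by omega) (by omega)
  exact composite_sequence d e hd he ρ hρ hρ0

theorem composite_data' (n : ℕ) (hn : ∃ d e : ℕ, 2 ≤ d ∧ 2 ≤ e ∧ n = d * e) :
    ∃ (P : Polynomial ℤ) (D : ℕ → OrderDatum n), P ≠ 0 ∧ (∀ z : ℤ, P.eval z ≠ 0) ∧
      (∀ i, ∃ r ∈ (D i).O, Polynomial.aeval r P = 0) ∧
      Tendsto (fun i => |Algebra.discr ℚ (D i).basis|) atTop atTop := by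
  obtain ⟨d, e, hd, he, rfl⟩ := hn
  obtain ⟨D, hD, hdisc⟩ := composite_data e d he hd
  exact ⟨towerG d, D, towerG_ne_zero d (by omega), towerG_no_int_root d hd, hD, hdisc⟩

theorem composite_disproof (n : ℕ) (hn : ∃ d e : ℕ, 2 ≤ d ∧ 2 ≤ e ∧ n = d * e) :
    ∃ D : ℕ → OrderDatum n,
      Tendsto (fun i => |Algebra.discr ℚ (D i).basis|) atTop atTop ∧
      ∀ (μ : ℕ → Measure (X n)) (m : Measure (X n)),
        (∀ i, ∀ᵐ x ∂(μ i), x ∈ packetSupport (D i)) →
        IsProbabilityMeasure m →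
        (∀ h : Matrix.SpecialLinearGroup (Fin n) ℝ, Measure.map (rightMul h) m = m) →
        ¬ ∀ f : X n → ℝ, Continuous f → HasCompactSupport f →
          Tendsto (fun i => ∫ x, f x ∂(μ i)) atTop (𝓝 (∫ x, f x ∂m)) := by
  obtain ⟨P, D, hP0, hP, hD, hdisc⟩ := composite_data' n hn
  exact ⟨D, hdisc, fun μ m hμ hm hinv => no_vague_convergence P hP0 hP D hD μ m hμ hm hinv⟩

theorem composite_strong (n : ℕ) (hn : ∃ d e : ℕ, 2 ≤ d ∧ 2 ≤ e ∧ n = d * e) :
    ∃ (D : ℕ → OrderDatum n) (Y : Set (X n)),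
      Tendsto (fun i => |Algebra.discr ℚ (D i).basis|) atTop atTop ∧
      IsClosed Y ∧
      (∀ i, (packetSupport (D i)).Nonempty ∧ packetSupport (D i) ⊆ Y) ∧
      (∀ m : Measure (X n), IsProbabilityMeasure m →
        (∀ h : Matrix.SpecialLinearGroup (Fin n) ℝ, Measure.map (rightMul h) m = m) →
        m Y = 0) ∧
      ∀ (μ : ℕ → Measure (X n)) (m : Measure (X n)),
        (∀ i, ∀ᵐ x ∂(μ i), x ∈ packetSupport (D i)) →
        IsProbabilityMeasure m →
        (∀ h : Matrix.SpecialLinearGroup (Fin n) ℝ, Measure.map (rightMul h) m = m) →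
        ∀ φ : ℕ → ℕ, StrictMono φ →
          ¬ ∀ f : X n → ℝ, Continuous f → HasCompactSupport f →
            Tendsto (fun i => ∫ x, f x ∂(μ (φ i))) atTop (𝓝 (∫ x, f x ∂m)) := by
  have hn0 : NeZero n := by
    obtain ⟨d, e, hd, he, rfl⟩ := hn
    exact ⟨(Nat.mul_pos (by omega) (by omega)).ne'⟩
  obtain ⟨P, D, hP0, hP, hD, hdisc⟩ := composite_data' n hn
  obtain ⟨Y, hYc, hYsub, hY0⟩ := exists_closed_null_trap P hP0 hP D hD
  exact ⟨D, Y, hdisc, hYc, fun i => ⟨packetSupport_nonempty (D i), hYsub i⟩, hY0,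
    fun μ m hμ hm hinv φ _ => no_vague_convergence_subseq P hP0 hP D hD μ m hμ hm hinv φ⟩

end Vale.Agent.Lib.P007
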