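import Mathlib

namespace Vale.Agent.Lib.P007

open MeasureTheory

/-- The subgroup `SL_n(ℤ)` of `SL_n(ℝ)`. -/
def Gamma (n : ℕ) : Subgroup (Matrix.SpecialLinearGroup (Fin n) ℝ) :=
  (Matrix.SpecialLinearGroup.map (Int.castRingHom ℝ)).range

/-- The space `X_n = SL_n(ℤ) \ SL_n(ℝ)` of unimodular lattices: the orbit space of `SL_n(ℝ)`
under left multiplication by `SL_n(ℤ)`. -/
def X (n : ℕ) : Type :=
  Quotient (MulAction.orbitRel (Gamma n) (Matrix.SpecialLinearGroup (Fin n) ℝ))

/-- The class `SL_n(ℤ) g` of `g`. -/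
def cls {n : ℕ} (g : Matrix.SpecialLinearGroup (Fin n) ℝ) : X n :=
  Quotient.mk (MulAction.orbitRel (Gamma n) (Matrix.SpecialLinearGroup (Fin n) ℝ)) g

/-- The quotient topology on `X_n`. -/
instance instTopologicalSpaceX (n : ℕ) : TopologicalSpace (X n) :=
  @instTopologicalSpaceQuotient (Matrix.SpecialLinearGroup (Fin n) ℝ)
    (MulAction.orbitRel (Gamma n) (Matrix.SpecialLinearGroup (Fin n) ℝ)) _

/-- The Borel sigma-algebra on `X_n`. -/
instance instMeasurableSpaceX (n : ℕ) : MeasurableSpace (X n) := borel (X n)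

instance instBorelSpaceX (n : ℕ) : BorelSpace (X n) := ⟨rfl⟩

theorem rightMul_aux {n : ℕ} (h : Matrix.SpecialLinearGroup (Fin n) ℝ)
    ⦃a b : Matrix.SpecialLinearGroup (Fin n) ℝ⦄
    (hab : (MulAction.orbitRel (Gamma n) (Matrix.SpecialLinearGroup (Fin n) ℝ)).r a b) :
    (MulAction.orbitRel (Gamma n) (Matrix.SpecialLinearGroup (Fin n) ℝ)).r (a * h) (b * h) := by
  obtain ⟨γ, rfl⟩ := hab
  exact ⟨γ, by simp [Subgroup.smul_def, mul_assoc]⟩

/-- Right translation `SL_n(ℤ) g ↦ SL_n(ℤ) g h` on `X_n`. -/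
def rightMul {n : ℕ} (h : Matrix.SpecialLinearGroup (Fin n) ℝ) : X n → X n :=
  Quotient.map (fun g => g * h) (rightMul_aux h)

/-- The lattice `ℤ^n g` spanned by the rows of `g`. -/
def rowLattice {n : ℕ} (g : Matrix.SpecialLinearGroup (Fin n) ℝ) : Set (Fin n → ℝ) :=
  Set.range fun v : Fin n → ℤ =>
    Matrix.vecMul (fun j => (v j : ℝ)) (g : Matrix (Fin n) (Fin n) ℝ)

/-- A totally real number field `K` of degree `n` with an ordering `σ` of its real embeddings,
together with an order `O` of `K`, given with a `ℤ`-basis. -/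
structure OrderDatum (n : ℕ) where
  K : Type
  [instField : Field K]
  [instNumberField : NumberField K]
  finrank_eq : Module.finrank ℚ K = n
  σ : Fin n → K →+* ℝ
  σ_injective : Function.Injective σ
  O : Subring K
  basis : Fin n → K
  basis_indep : LinearIndependent ℤ basis
  mem_O_iff : ∀ x : K, x ∈ O ↔ ∃ c : Fin n → ℤ, x = ∑ j, c j • basis j

attribute [instance] OrderDatum.instField OrderDatum.instNumberField

/-- `I` is a proper invertible fractional ideal of the subring `O` of the field `K`: an additive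
subgroup of `K` with `O I ⊆ I`, such that `I J = O` for some additive subgroup `J` with
`O J ⊆ J` (the products `x y`, `x ∈ I`, `y ∈ J`, generate the additive group `O`), and such that
`{a : a I ⊆ I} = O`. -/
def IsProperInvertibleIdeal {K : Type} [Field K] (O : Subring K) (I : AddSubgroup K) : Prop :=
  (∀ a ∈ O, ∀ y ∈ I, a * y ∈ I) ∧
  (∃ J : AddSubgroup K, (∀ a ∈ O, ∀ y ∈ J, a * y ∈ J) ∧
    AddSubgroup.closure {z : K | ∃ x ∈ I, ∃ y ∈ J, z = x * y} = O.toAddSubgroup) ∧
  {a : K | ∀ y ∈ I, a * y ∈ I} = (O : Set K)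

/-- The union of the orbits of the packet of the order: the points `SL_n(ℤ) g` whose lattice
`ℤ^n g` is `c • σ(I) w a` for a proper invertible fractional `O`-ideal `I`, a sign matrix `w`,
`a = diag(exp u_j)` with `∑ u_j = 0`, and a scalar `c > 0`. -/
def packetSupport {n : ℕ} (D : OrderDatum n) : Set (X n) :=
  {x | ∃ (g : Matrix.SpecialLinearGroup (Fin n) ℝ) (I : AddSubgroup D.K) (c : ℝ)
      (w u : Fin n → ℝ),
    cls g = x ∧ IsProperInvertibleIdeal D.O I ∧ 0 < c ∧ (∀ j, w j = 1 ∨ w j = -1) ∧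
    ∑ j, u j = 0 ∧
    rowLattice g = {v | ∃ y ∈ I, v = fun j => c * D.σ j y * w j * Real.exp (u j)}}

end Vale.Agent.Lib.P007
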