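import Vale.Agent.Lib.P007.Quartic

namespace Vale.Agent.Lib.P007

open Polynomial

/-- `f_{d,e} = ∏_{j=1}^{d} (x - (16 e + 16) j)`. -/
noncomputable def towerF (d e : ℕ) : Polynomial ℤ :=
  ∏ j ∈ Finset.range d,
    ((Polynomial.X : Polynomial ℤ) - Polynomial.C (((16 * e + 16) * (j + 1) : ℕ) : ℤ))

/-- `g_e = ∏_{k=1}^{e} (x - 8 k) + 2`. -/
noncomputable def towerG (e : ℕ) : Polynomial ℤ :=
  ∏ k ∈ Finset.range e, ((Polynomial.X : Polynomial ℤ) - Polynomial.C ((8 * (k + 1) : ℕ) : ℤ)) +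
    Polynomial.C 2

end Vale.Agent.Lib.P007
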