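import Vale.Agent.Lib.P007.Family

namespace Vale.Agent.Lib.P007

open Polynomial

theorem towerF_monic (d e : ℕ) : (towerF d e).Monic :=
  monic_prod_of_monic _ _ fun _ _ => monic_X_sub_C _

theorem towerF_natDegree (d e : ℕ) : (towerF d e).natDegree = d := by
  unfold towerF
  rw [natDegree_prod_of_monic _ _ fun _ _ => monic_X_sub_C _]
  simp only [natDegree_X_sub_C, Finset.sum_const, Finset.card_range, smul_eq_mul, mul_one]

theorem towerP_monic (e : ℕ) :
    (∏ k ∈ Finset.range e,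
      ((Polynomial.X : Polynomial ℤ) - Polynomial.C ((8 * (k + 1) : ℕ) : ℤ))).Monic :=
  monic_prod_of_monic _ _ fun _ _ => monic_X_sub_C _

theorem towerP_natDegree (e : ℕ) :
    (∏ k ∈ Finset.range e,
      ((Polynomial.X : Polynomial ℤ) - Polynomial.C ((8 * (k + 1) : ℕ) : ℤ))).natDegree = e := by
  rw [natDegree_prod_of_monic _ _ fun _ _ => monic_X_sub_C _]
  simp only [natDegree_X_sub_C, Finset.sum_const, Finset.card_range, smul_eq_mul, mul_one]

theorem towerG_natDegree (e : ℕ) : (towerG e).natDegree = e := by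
  unfold towerG
  rw [natDegree_add_C, towerP_natDegree]

theorem towerG_monic (e : ℕ) (he : 1 ≤ e) : (towerG e).Monic := by
  unfold towerG
  refine (towerP_monic e).add_of_left ?_
  rw [degree_eq_natDegree (towerP_monic e).ne_zero, towerP_natDegree]
  refine lt_of_le_of_lt degree_C_le ?_
  exact_mod_cast he

theorem towerF_map (d e : ℕ) :
    (towerF d e).map (Int.castRingHom (ZMod 2)) = (Polynomial.X : Polynomial (ZMod 2)) ^ d := by
  unfold towerF
  rw [Polynomial.map_prod]
  have h : ∀ j ∈ Finset.range d,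
      ((Polynomial.X : Polynomial ℤ) - Polynomial.C (((16 * e + 16) * (j + 1) : ℕ) : ℤ)).map
        (Int.castRingHom (ZMod 2)) = (Polynomial.X : Polynomial (ZMod 2)) := by
    intro j _
    rw [Polynomial.map_sub, map_X, map_C]
    have h0 : (Int.castRingHom (ZMod 2)) (((16 * e + 16) * (j + 1) : ℕ) : ℤ) = 0 := by
      rw [eq_intCast, Int.cast_natCast, ZMod.natCast_eq_zero_iff]
      exact Dvd.dvd.mul_right ⟨8 * e + 8, by ring⟩ _
    rw [h0, C_0, sub_zero]
  rw [Finset.prod_congr rfl h, Finset.prod_const, Finset.card_range]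

theorem towerG_map (e : ℕ) :
    (towerG e).map (Int.castRingHom (ZMod 2)) = (Polynomial.X : Polynomial (ZMod 2)) ^ e := by
  unfold towerG
  rw [Polynomial.map_add, Polynomial.map_prod]
  have h : ∀ k ∈ Finset.range e,
      ((Polynomial.X : Polynomial ℤ) - Polynomial.C ((8 * (k + 1) : ℕ) : ℤ)).map
        (Int.castRingHom (ZMod 2)) = (Polynomial.X : Polynomial (ZMod 2)) := by
    intro k _
    rw [Polynomial.map_sub, map_X, map_C]
    have h0 : (Int.castRingHom (ZMod 2)) ((8 * (k + 1) : ℕ) : ℤ) = 0 := by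
      rw [eq_intCast, Int.cast_natCast, ZMod.natCast_eq_zero_iff]
      exact Dvd.dvd.mul_right ⟨4, by ring⟩ _
    rw [h0, C_0, sub_zero]
  have h2 : (Polynomial.C (2 : ℤ)).map (Int.castRingHom (ZMod 2)) = 0 := by
    rw [map_C]
    have : (Int.castRingHom (ZMod 2)) 2 = 0 := by decide
    rw [this, C_0]
  rw [Finset.prod_congr rfl h, Finset.prod_const, Finset.card_range, h2, add_zero]

theorem tower_comp_map (d e : ℕ) :
    ((towerG e).comp (towerF d e)).map (Int.castRingHom (ZMod 2)) =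
      (Polynomial.X : Polynomial (ZMod 2)) ^ (e * d) := by
  rw [map_comp, towerF_map, towerG_map, X_pow_comp, ← pow_mul, mul_comm]

theorem four_dvd_towerF_eval_zero (d e : ℕ) (hd : 1 ≤ d) : (4 : ℤ) ∣ (towerF d e).eval 0 := by
  unfold towerF
  rw [eval_prod]
  refine dvd_trans ?_ (Finset.dvd_prod_of_mem _ (Finset.mem_range.mpr hd))
  simp only [eval_sub, eval_X, eval_C]
  refine ⟨-(4 * e + 4), ?_⟩
  push_cast
  ring

theorem tower_coeff_zero (d e : ℕ) (hd : 1 ≤ d) (he : 1 ≤ e) :
    ¬ (4 : ℤ) ∣ ((towerG e).comp (towerF d e)).coeff 0 := by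
  rw [coeff_zero_eq_eval_zero, eval_comp]
  obtain ⟨a, ha⟩ := four_dvd_towerF_eval_zero d e hd
  rw [ha]
  unfold towerG
  rw [eval_add, eval_prod, eval_C]
  have h4 : (4 : ℤ) ∣ ∏ k ∈ Finset.range e,
      eval (4 * a) ((Polynomial.X : Polynomial ℤ) - Polynomial.C ((8 * (k + 1) : ℕ) : ℤ)) := by
    refine dvd_trans ?_ (Finset.dvd_prod_of_mem _ (Finset.mem_range.mpr he))
    simp only [eval_sub, eval_X, eval_C]
    refine ⟨a - 2, ?_⟩
    push_cast
    ring
  obtain ⟨b, hb⟩ := h4
  rw [hb]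
  omega

theorem towerG_no_int_root (e : ℕ) (he : 2 ≤ e) (z : ℤ) : (towerG e).eval z ≠ 0 := by
  unfold towerG
  rw [eval_add, eval_prod, eval_C]
  simp only [eval_sub, eval_X, eval_C]
  intro h
  rcases Int.even_or_odd z with hz | hz
  · have h2 : ∀ k ∈ Finset.range e, (2 : ℤ) ∣ z - ((8 * (k + 1) : ℕ) : ℤ) := by
      intro k _
      obtain ⟨c, rfl⟩ := hz
      refine ⟨c - 4 * (k + 1), ?_⟩
      push_cast
      ring
    have h3 := Finset.prod_dvd_prod_of_dvd (fun _ => (2 : ℤ))
      (fun k => z - ((8 * (k + 1) : ℕ) : ℤ)) h2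
    rw [Finset.prod_const, Finset.card_range] at h3
    have h4 : (4 : ℤ) ∣ ∏ k ∈ Finset.range e, (z - ((8 * (k + 1) : ℕ) : ℤ)) :=
      dvd_trans (by simpa using pow_dvd_pow (2 : ℤ) he) h3
    obtain ⟨b, hb⟩ := h4
    omega
  · have h2 : Odd (∏ k ∈ Finset.range e, (z - ((8 * (k + 1) : ℕ) : ℤ))) := by
      refine Finset.prod_induction _ Odd (fun a b ha hb => ha.mul hb) odd_one ?_
      intro k _
      refine hz.sub_even ⟨4 * (k + 1), ?_⟩
      push_cast
      ring
    obtain ⟨b, hb⟩ := h2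
    omega

theorem towerG_ne_zero (e : ℕ) (he : 1 ≤ e) : towerG e ≠ 0 := (towerG_monic e he).ne_zero

theorem tower_irreducible (d e : ℕ) (hd : 1 ≤ d) (he : 1 ≤ e) :
    Irreducible (((towerG e).comp (towerF d e)).map (Int.castRingHom ℚ)) := by
  have hdeg : ((towerG e).comp (towerF d e)).natDegree = e * d := by
    rw [natDegree_comp, towerG_natDegree, towerF_natDegree]
  refine irreducible_map_of_mod_two _
    ((towerG_monic e he).comp (towerF_monic d e) (by rw [towerF_natDegree]; omega)) (e * d) hdeg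
    (Nat.mul_pos (by omega) (by omega)) (tower_comp_map d e) (tower_coeff_zero d e hd he)

open Filter in
theorem composite_sequence (d e : ℕ) (hd : 2 ≤ d) (he : 2 ≤ e)
    (ρ : Fin (e * d) → ℝ) (hρ : Function.Injective ρ)
    (hρ0 : ∀ k, aeval (ρ k) ((towerG e).comp (towerF d e)) = 0) :
    ∃ D : ℕ → OrderDatum (e * d), (∀ i, ∃ r ∈ (D i).O, aeval r (towerG e) = 0) ∧
      Tendsto (fun i => |Algebra.discr ℚ (D i).basis|) atTop atTop :=
  exists_tower_sequence (towerF d e) (towerG e) (towerF_monic d e) (towerG_monic e (by omega))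
    (by rw [towerF_natDegree]; exact hd) (by rw [towerG_natDegree]; omega) (e * d)
    (by rw [towerG_natDegree, towerF_natDegree])
    (tower_irreducible d e (by omega) (by omega)) ρ hρ hρ0

end Vale.Agent.Lib.P007
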