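import Vale.Agent.Lib.P007.Main
import Vale.Agent.Lib.P007.helper59.Sanity

namespace Vale.Agent.Lib.P007

open Matrix MeasureTheory Topology Filter Polynomial

/-- The integer matrix of multiplication by an element of the order, in the given basis. -/
theorem exists_mulMatrix {n : ℕ} (D : OrderDatum n) (r : D.K) (hr : r ∈ D.O) :
    ∃ M : Matrix (Fin n) (Fin n) ℤ, ∀ i, r * D.basis i = ∑ k, M i k • D.basis k := by
  have hb : ∀ i, D.basis i ∈ D.O := by
    intro i
    rw [D.mem_O_iff]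
    refine ⟨Pi.single i 1, ?_⟩
    simp [Pi.single_apply]
  have h : ∀ i, ∃ c : Fin n → ℤ, r * D.basis i = ∑ k, c k • D.basis k := fun i =>
    (D.mem_O_iff _).1 (D.O.mul_mem hr (hb i))
  choose c hc using h
  exact ⟨Matrix.of c, hc⟩

theorem mulMatrix_embMatrix {n : ℕ} (D : OrderDatum n) (r : D.K)
    (M : Matrix (Fin n) (Fin n) ℤ) (hM : ∀ i, r * D.basis i = ∑ k, M i k • D.basis k) :
    M.map (Int.castRingHom ℝ) * embMatrix D = embMatrix D * diagonal (fun j => D.σ j r) := by
  ext i j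
  rw [Matrix.mul_diagonal, Matrix.mul_apply]
  simp only [embMatrix, Matrix.of_apply, Matrix.map_apply, eq_intCast]
  have h1 := congrArg (D.σ j) (hM i)
  rw [map_mul, map_sum] at h1
  rw [mul_comm, h1]
  refine Finset.sum_congr rfl fun k _ => ?_
  rw [zsmul_eq_mul, map_mul, map_intCast]

/-- The characteristic polynomial of multiplication by `r`, evaluated at a real number, is the
product over the real embeddings. -/
theorem charpoly_aeval_real {n : ℕ} [NeZero n] (D : OrderDatum n) (r : D.K)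
    (M : Matrix (Fin n) (Fin n) ℤ) (hM : ∀ i, r * D.basis i = ∑ k, M i k • D.basis k) (t : ℝ) :
    aeval t M.charpoly = ∏ j, (t - D.σ j r) := by
  have h1 : aeval t M.charpoly = (Matrix.scalar (Fin n) t - M.map (Int.castRingHom ℝ)).det := by
    rw [← Matrix.eval_charpoly, Matrix.charpoly_map, aeval_def, eval₂_eq_eval_map]
    rfl
  have h2 : (Matrix.scalar (Fin n) t - M.map (Int.castRingHom ℝ)) * embMatrix D =
      embMatrix D * diagonal (fun j => t - D.σ j r) := by
    rw [Matrix.sub_mul, mulMatrix_embMatrix D r M hM]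
    ext i j
    simp [Matrix.mul_diagonal, Matrix.sub_apply, Matrix.scalar_apply, Matrix.diagonal_mul,
      mul_sub, mul_comm]
  have h3 := congrArg Matrix.det h2
  rw [Matrix.det_mul, Matrix.det_mul, Matrix.det_diagonal, mul_comm] at h3
  rw [h1]
  exact mul_left_cancel₀ (embMatrix_det_ne_zero D) h3

/-- Integer polynomials of degree at most `n` with bounded values at `0, …, n`. -/
def boundedPolys (n : ℕ) (C : ℝ) : Set (Polynomial ℤ) :=
  {Q | Q.natDegree ≤ n ∧ ∀ t : Fin (n + 1), |((Q.eval ((t : ℕ) : ℤ) : ℤ) : ℝ)| ≤ C}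

theorem finite_boundedPolys (n : ℕ) (C : ℝ) : (boundedPolys n C).Finite := by
  have hT : {z : ℤ | |(z : ℝ)| ≤ C}.Finite := by
    refine Set.Finite.subset (Set.finite_Icc (-⌈C⌉) ⌈C⌉) ?_
    intro z hz
    have hz : |(z : ℝ)| ≤ C := hz
    rw [abs_le] at hz
    rw [Set.mem_Icc]
    constructor
    · have h1 : (-(⌈C⌉ : ℤ) : ℝ) ≤ z := by
        linarith [Int.le_ceil C]
      exact_mod_cast h1
    · have h1 : (z : ℝ) ≤ (⌈C⌉ : ℤ) := by linarith [Int.le_ceil C]
      exact_mod_cast h1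
  have hV : {v : Fin (n + 1) → ℤ | ∀ t, v t ∈ {z : ℤ | |(z : ℝ)| ≤ C}}.Finite :=
    Set.Finite.pi' (fun _ => hT)
  refine Set.Finite.of_injOn (f := fun Q : Polynomial ℤ => fun t : Fin (n + 1) =>
    Q.eval ((t : ℕ) : ℤ)) ?_ ?_ hV
  · intro Q hQ t
    exact hQ.2 t
  · intro Q1 h1 Q2 h2 heq
    have hinj : Set.InjOn (fun t : Fin (n + 1) => ((t : ℕ) : ℤ))
        (Finset.univ : Finset (Fin (n + 1))) := by
      intro a _ b _ hab
      have : ((a : ℕ) : ℤ) = ((b : ℕ) : ℤ) := hab
      exact Fin.ext (by exact_mod_cast this)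
    refine Polynomial.eq_of_degrees_lt_of_eval_index_eq (Finset.univ : Finset (Fin (n + 1)))
      hinj ?_ ?_ ?_
    · rw [Finset.card_univ, Fintype.card_fin]
      exact lt_of_le_of_lt (Polynomial.degree_le_of_natDegree_le h1.1) (by exact_mod_cast Nat.lt_succ_self n)
    · rw [Finset.card_univ, Fintype.card_fin]
      exact lt_of_le_of_lt (Polynomial.degree_le_of_natDegree_le h2.1) (by exact_mod_cast Nat.lt_succ_self n)
    · intro t _
      exact congrFun heq t

/-- One polynomial divisible by all bounded candidates without integer roots. -/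
theorem exists_house_poly (n : ℕ) (C : ℝ) :
    ∃ P : Polynomial ℤ, P ≠ 0 ∧ (∀ z : ℤ, P.eval z ≠ 0) ∧
      ∀ Q ∈ boundedPolys n C, Q ≠ 0 → (∀ z : ℤ, Q.eval z ≠ 0) → Q ∣ P := by
  classical
  let S : Finset (Polynomial ℤ) :=
    (finite_boundedPolys n C).toFinset.filter (fun Q => Q ≠ 0 ∧ ∀ z : ℤ, Q.eval z ≠ 0)
  refine ⟨∏ Q ∈ S, Q, ?_, ?_, ?_⟩
  · rw [Finset.prod_ne_zero_iff]
    intro Q hQ
    exact (Finset.mem_filter.mp hQ).2.1
  · intro z
    rw [Polynomial.eval_prod, Finset.prod_ne_zero_iff]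
    intro Q hQ
    exact (Finset.mem_filter.mp hQ).2.2 z
  · intro Q hQ hQ0 hQz
    refine Finset.dvd_prod_of_mem _ ?_
    rw [Finset.mem_filter]
    exact ⟨(Set.Finite.mem_toFinset _).2 hQ, hQ0, hQz⟩

/-- A non-integer element of the order with all conjugates bounded by `B` is a root of a
polynomial from the bounded family which has no integer root. -/
theorem exists_bounded_charpoly {n : ℕ} [NeZero n] (D : OrderDatum n) (B : ℝ) (r : D.K)
    (hr : r ∈ D.O) (hrz : ∀ z : ℤ, r ≠ (z : D.K)) (hB : ∀ j, |D.σ j r| ≤ B) :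
    ∃ Q ∈ boundedPolys n ((n + B) ^ n), Q ≠ 0 ∧ (∀ z : ℤ, Q.eval z ≠ 0) ∧ aeval r Q = 0 := by
  obtain ⟨M, hM⟩ := exists_mulMatrix D r hr
  have hprod := charpoly_aeval_real D r M hM
  have hB0 : 0 ≤ B := le_trans (abs_nonneg _) (hB 0)
  have hcast : ∀ z : ℤ, ((M.charpoly.eval z : ℤ) : ℝ) = ∏ j, ((z : ℝ) - D.σ j r) := by
    intro z
    rw [← hprod]
    have h3 := Polynomial.aeval_algebraMap_apply_eq_algebraMap_eval (A := ℝ) z M.charpoly
    simpa using h3.symm
  refine ⟨M.charpoly, ⟨?_, ?_⟩, (Matrix.charpoly_monic M).ne_zero, ?_, ?_⟩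
  · rw [Matrix.charpoly_natDegree_eq_dim, Fintype.card_fin]
  · intro t
    rw [hcast, Finset.abs_prod]
    have hle : ∀ j ∈ (Finset.univ : Finset (Fin n)),
        |(((t : ℕ) : ℤ) : ℝ) - D.σ j r| ≤ (n : ℝ) + B := by
      intro j _
      have h1 : |(((t : ℕ) : ℤ) : ℝ) - D.σ j r| ≤ |(((t : ℕ) : ℤ) : ℝ)| + |D.σ j r| :=
        abs_sub _ _
      have h2 : |(((t : ℕ) : ℤ) : ℝ)| ≤ (n : ℝ) := by
        rw [abs_of_nonneg (by positivity)]
        have : (t : ℕ) ≤ n := Nat.lt_succ_iff.mp t.2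
        exact_mod_cast this
      linarith [hB j]
    calc ∏ j, |(((t : ℕ) : ℤ) : ℝ) - D.σ j r| ≤ ∏ _j : Fin n, ((n : ℝ) + B) :=
          Finset.prod_le_prod (fun j _ => abs_nonneg _) hle
      _ = ((n : ℝ) + B) ^ n := by rw [Finset.prod_const, Finset.card_univ, Fintype.card_fin]
  · intro z hz
    have h1 := hcast z
    rw [hz, Int.cast_zero] at h1
    have h2 := Finset.prod_eq_zero_iff.mp h1.symm
    obtain ⟨j, -, hj⟩ := h2
    apply hrz z
    apply (D.σ j).injective
    rw [map_intCast]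
    linarith
  · apply (D.σ 0).injective
    rw [map_zero]
    have h1 := Polynomial.aeval_algHom_apply ((D.σ 0).toIntAlgHom) r M.charpoly
    have h2 : aeval (D.σ 0 r) M.charpoly = 0 := by
      rw [hprod]
      exact Finset.prod_eq_zero (Finset.mem_univ 0) (sub_self _)
    rw [← h2]
    exact h1.symm

/-- The bounded-house obstruction: if infinitely many of the orders contain an element which is
not a rational integer and all of whose conjugates are bounded by `B`, there is no vague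
convergence to an invariant probability measure. -/
theorem no_vague_convergence_house {n : ℕ} (B : ℝ) (D : ℕ → OrderDatum n)
    (hD : ∃ᶠ i in atTop, ∃ r ∈ (D i).O, (∀ z : ℤ, r ≠ (z : (D i).K)) ∧
      ∀ j, |(D i).σ j r| ≤ B)
    (μ : ℕ → Measure (X n)) (m : Measure (X n))
    (hμ : ∀ i, ∀ᵐ x ∂(μ i), x ∈ packetSupport (D i))
    (hm : IsProbabilityMeasure m)
    (hinv : ∀ h : Matrix.SpecialLinearGroup (Fin n) ℝ, Measure.map (rightMul h) m = m) :
    ¬ ∀ f : X n → ℝ, Continuous f → HasCompactSupport f →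
      Tendsto (fun i => ∫ x, f x ∂(μ i)) atTop (𝓝 (∫ x, f x ∂m)) := by
  have hn : 0 < n := by
    have h1 := (D 0).finrank_eq
    have hpos : 0 < Module.finrank ℚ (D 0).K := Module.finrank_pos
    omega
  have : NeZero n := ⟨hn.ne'⟩
  obtain ⟨P, hP0, hP, hdvd⟩ := exists_house_poly n ((n + B) ^ n)
  refine no_vague_convergence_frequently P hP0 hP D ?_ μ m hμ hm hinv
  refine hD.mono fun i hi => ?_
  obtain ⟨r, hr, hrz, hB⟩ := hi
  obtain ⟨Q, hQmem, hQ0, hQz, hQr⟩ := exists_bounded_charpoly (D i) B r hr hrz hB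
  obtain ⟨R, hR⟩ := hdvd Q hQmem hQ0 hQz
  refine ⟨r, hr, ?_⟩
  rw [hR, map_mul, hQr, zero_mul]

/-- Necessary condition for equidistribution: the smallest element of the order which is not a
rational integer, measured by its largest conjugate, tends to infinity. -/
theorem house_tendsto_of_vague_convergence {n : ℕ} (D : ℕ → OrderDatum n)
    (μ : ℕ → Measure (X n)) (m : Measure (X n))
    (hμ : ∀ i, ∀ᵐ x ∂(μ i), x ∈ packetSupport (D i))
    (hm : IsProbabilityMeasure m)
    (hinv : ∀ h : Matrix.SpecialLinearGroup (Fin n) ℝ, Measure.map (rightMul h) m = m)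
    (hconv : ∀ f : X n → ℝ, Continuous f → HasCompactSupport f →
      Tendsto (fun i => ∫ x, f x ∂(μ i)) atTop (𝓝 (∫ x, f x ∂m))) (B : ℝ) :
    ∀ᶠ i in atTop, ∀ r ∈ (D i).O, (∀ z : ℤ, r ≠ (z : (D i).K)) →
      ∃ j, B < |(D i).σ j r| := by
  by_contra h
  rw [not_eventually] at h
  refine no_vague_convergence_house B D (h.mono fun i hi => ?_) μ m hμ hm hinv hconv
  push Not at hi
  exact hi

end Vale.Agent.Lib.P007
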