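import Vale.Agent.Lib.P007.FamilyAlg

namespace Vale.Agent.Lib.P007

open Matrix MeasureTheory Topology Filter

/-- Measures that are frequently carried by a fixed closed set of `m`-measure zero do not
converge vaguely to the probability measure `m`. -/
theorem no_vague_convergence_of_closed_null {n : ℕ} (Y : Set (X n)) (hY : IsClosed Y)
    (μ : ℕ → Measure (X n)) (m : Measure (X n)) [IsProbabilityMeasure m] (hm0 : m Y = 0)
    (hμ : ∃ᶠ i in atTop, ∀ᵐ x ∂(μ i), x ∈ Y) :
    ¬ ∀ f : X n → ℝ, Continuous f → HasCompactSupport f →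
      Tendsto (fun i => ∫ x, f x ∂(μ i)) atTop (𝓝 (∫ x, f x ∂m)) := by
  intro hconv
  have hYcompl : m Yᶜ = 1 := by
    rw [measure_compl hY.measurableSet (measure_ne_top _ _), hm0, measure_univ, tsub_zero]
  obtain ⟨C, hCsub, hCcomp, hCpos⟩ := hY.isOpen_compl.exists_lt_isCompact
    (show (0 : ENNReal) < m Yᶜ by rw [hYcompl]; exact one_pos)
  obtain ⟨f, hf1, hf0, hfc, hf01⟩ := exists_continuous_one_zero_of_isCompact hCcomp hY
    (Set.disjoint_left.mpr fun x hx hxY => hCsub hx hxY)
  have key := hconv f f.continuous hfc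
  have hpos : 0 < ∫ x, f x ∂m := by
    rw [integral_pos_iff_support_of_nonneg (fun x => (hf01 x).1)
      (f.continuous.integrable_of_hasCompactSupport hfc)]
    refine lt_of_lt_of_le hCpos (measure_mono ?_)
    intro x hx
    rw [Function.mem_support, hf1 hx]
    exact one_ne_zero
  have hev : ∀ᶠ i in atTop, 0 < ∫ x, f x ∂(μ i) := key.eventually (lt_mem_nhds hpos)
  obtain ⟨i, hi, hi0⟩ := (hμ.and_eventually hev).exists
  have hzero : ∫ x, f x ∂(μ i) = 0 := by
    apply integral_eq_zero_of_ae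
    filter_upwards [hi] with x hx
    exact hf0 hx
  linarith

/-- All packets of orders containing a root of `P` lie in one closed set which is null for
every invariant probability measure. -/
theorem exists_closed_null_trap {n : ℕ} (P : Polynomial ℤ) (hP0 : P ≠ 0)
    (hP : ∀ z : ℤ, P.eval z ≠ 0) (D : ℕ → OrderDatum n)
    (hD : ∀ i, ∃ r ∈ (D i).O, Polynomial.aeval r P = 0) :
    ∃ Y : Set (X n), IsClosed Y ∧ (∀ i, packetSupport (D i) ⊆ Y) ∧
      ∀ m : Measure (X n), IsProbabilityMeasure m →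
        (∀ h : Matrix.SpecialLinearGroup (Fin n) ℝ, Measure.map (rightMul h) m = m) →
        m Y = 0 := by
  have hn : 0 < n := by
    have h1 := (D 0).finrank_eq
    have hpos : 0 < Module.finrank ℚ (D 0).K := Module.finrank_pos
    omega
  exact ⟨trapSet n P, isClosed_trapSet n P,
    fun i => packetSupport_subset_trapSet P hP0 (D i) (hD i),
    fun m hm hinv => measure_trapSet hn P hP m hinv⟩

/-- The general obstruction: if infinitely many of the orders contain a root of one fixed
nonzero integer polynomial without integer roots, there is no vague convergence to an invariant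
probability measure. -/
theorem no_vague_convergence_frequently {n : ℕ} (P : Polynomial ℤ) (hP0 : P ≠ 0)
    (hP : ∀ z : ℤ, P.eval z ≠ 0) (D : ℕ → OrderDatum n)
    (hD : ∃ᶠ i in atTop, ∃ r ∈ (D i).O, Polynomial.aeval r P = 0)
    (μ : ℕ → Measure (X n)) (m : Measure (X n))
    (hμ : ∀ i, ∀ᵐ x ∂(μ i), x ∈ packetSupport (D i))
    (hm : IsProbabilityMeasure m)
    (hinv : ∀ h : Matrix.SpecialLinearGroup (Fin n) ℝ, Measure.map (rightMul h) m = m) :
    ¬ ∀ f : X n → ℝ, Continuous f → HasCompactSupport f →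
      Tendsto (fun i => ∫ x, f x ∂(μ i)) atTop (𝓝 (∫ x, f x ∂m)) := by
  have hn : 0 < n := by
    have h1 := (D 0).finrank_eq
    have hpos : 0 < Module.finrank ℚ (D 0).K := Module.finrank_pos
    omega
  refine no_vague_convergence_of_closed_null (trapSet n P) (isClosed_trapSet n P) μ m
    (measure_trapSet hn P hP m hinv) ?_
  refine hD.mono fun i hi => ?_
  filter_upwards [hμ i] with x hx
  exact packetSupport_subset_trapSet P hP0 (D i) hi hx

/-- No subsequence converges either. -/
theorem no_vague_convergence_subseq {n : ℕ} (P : Polynomial ℤ) (hP0 : P ≠ 0)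
    (hP : ∀ z : ℤ, P.eval z ≠ 0) (D : ℕ → OrderDatum n)
    (hD : ∀ i, ∃ r ∈ (D i).O, Polynomial.aeval r P = 0)
    (μ : ℕ → Measure (X n)) (m : Measure (X n))
    (hμ : ∀ i, ∀ᵐ x ∂(μ i), x ∈ packetSupport (D i))
    (hm : IsProbabilityMeasure m)
    (hinv : ∀ h : Matrix.SpecialLinearGroup (Fin n) ℝ, Measure.map (rightMul h) m = m)
    (φ : ℕ → ℕ) :
    ¬ ∀ f : X n → ℝ, Continuous f → HasCompactSupport f →
      Tendsto (fun i => ∫ x, f x ∂(μ (φ i))) atTop (𝓝 (∫ x, f x ∂m)) :=
  no_vague_convergence_frequently P hP0 hP (fun i => D (φ i))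
    (Frequently.of_forall fun i => hD (φ i)) (fun i => μ (φ i)) m (fun i => hμ (φ i)) hm hinv

/-- Any vague limit of measures that are frequently carried by a closed set `Y` is carried by
`Y`. -/
theorem limit_compl_null {n : ℕ} (Y : Set (X n)) (hY : IsClosed Y)
    (μ : ℕ → Measure (X n)) (ν : Measure (X n)) [IsFiniteMeasureOnCompacts ν]
    (hμ : ∃ᶠ i in atTop, ∀ᵐ x ∂(μ i), x ∈ Y)
    (hconv : ∀ f : X n → ℝ, Continuous f → HasCompactSupport f →
      Tendsto (fun i => ∫ x, f x ∂(μ i)) atTop (𝓝 (∫ x, f x ∂ν))) :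
    ν Yᶜ = 0 := by
  by_contra hne
  have hpos0 : 0 < ν Yᶜ := pos_iff_ne_zero.mpr hne
  obtain ⟨C, hCsub, hCcomp, hCpos⟩ := hY.isOpen_compl.exists_lt_isCompact hpos0
  obtain ⟨f, hf1, hf0, hfc, hf01⟩ := exists_continuous_one_zero_of_isCompact hCcomp hY
    (Set.disjoint_left.mpr fun x hx hxY => hCsub hx hxY)
  have key := hconv f f.continuous hfc
  have hpos : 0 < ∫ x, f x ∂ν := by
    rw [integral_pos_iff_support_of_nonneg (fun x => (hf01 x).1)
      (f.continuous.integrable_of_hasCompactSupport hfc)]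
    refine lt_of_lt_of_le hCpos (measure_mono ?_)
    intro x hx
    rw [Function.mem_support, hf1 hx]
    exact one_ne_zero
  have hev : ∀ᶠ i in atTop, 0 < ∫ x, f x ∂(μ i) := key.eventually (lt_mem_nhds hpos)
  obtain ⟨i, hi, hi0⟩ := (hμ.and_eventually hev).exists
  have hzero : ∫ x, f x ∂(μ i) = 0 := by
    apply integral_eq_zero_of_ae
    filter_upwards [hi] with x hx
    exact hf0 hx
  linarith

end Vale.Agent.Lib.P007
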