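import Vale.Agent.Lib.P007.Main
import Vale.Agent.Lib.P007.helper59.Sanity
import Vale.Agent.Lib.P007.helper59.MaximalComposite

namespace Vale.Agent.Lib.P007

open Matrix MeasureTheory Topology Filter

/-- For composite `n`: maximal orders of totally real fields of degree `n`, all containing a root
of one fixed integer polynomial without integer roots, with discriminants tending to infinity. -/
theorem maximal_data (n : ℕ) (hn : ∃ d e : ℕ, 2 ≤ d ∧ 2 ≤ e ∧ n = d * e) :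
    ∃ (P : Polynomial ℤ) (D : ℕ → OrderDatum n), P ≠ 0 ∧ (∀ z : ℤ, P.eval z ≠ 0) ∧
      (∀ i, ∀ x : (D i).K, x ∈ (D i).O ↔ IsIntegral ℤ x) ∧
      (∀ i, ∃ r ∈ (D i).O, Polynomial.aeval r P = 0) ∧
      Tendsto (fun i => |Algebra.discr ℚ (D i).basis|) atTop atTop := by
  obtain ⟨d, e, hd, he, rfl⟩ := hn
  obtain ⟨D, hmax, hD, hdisc⟩ := exists_maximal_sequence_composite e d he hd
  exact ⟨towerG d, D, towerG_ne_zero d (by omega), towerG_no_int_root d hd, hmax, hD, hdisc⟩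

theorem maximal_disproof (n : ℕ) (hn : ∃ d e : ℕ, 2 ≤ d ∧ 2 ≤ e ∧ n = d * e) :
    ∃ D : ℕ → OrderDatum n,
      (∀ i, ∀ x : (D i).K, x ∈ (D i).O ↔ IsIntegral ℤ x) ∧
      Tendsto (fun i => |Algebra.discr ℚ (D i).basis|) atTop atTop ∧
      ∀ (μ : ℕ → Measure (X n)) (m : Measure (X n)),
        (∀ i, ∀ᵐ x ∂(μ i), x ∈ packetSupport (D i)) →
        IsProbabilityMeasure m →
        (∀ h : Matrix.SpecialLinearGroup (Fin n) ℝ, Measure.map (rightMul h) m = m) →
        ¬ ∀ f : X n → ℝ, Continuous f → HasCompactSupport f →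
          Tendsto (fun i => ∫ x, f x ∂(μ i)) atTop (𝓝 (∫ x, f x ∂m)) := by
  obtain ⟨P, D, hP0, hP, hmax, hD, hdisc⟩ := maximal_data n hn
  exact ⟨D, hmax, hdisc, fun μ m hμ hm hinv =>
    no_vague_convergence P hP0 hP D hD μ m hμ hm hinv⟩

theorem maximal_strong (n : ℕ) (hn : ∃ d e : ℕ, 2 ≤ d ∧ 2 ≤ e ∧ n = d * e) :
    ∃ (D : ℕ → OrderDatum n) (Y : Set (X n)),
      (∀ i, ∀ x : (D i).K, x ∈ (D i).O ↔ IsIntegral ℤ x) ∧
      Tendsto (fun i => |Algebra.discr ℚ (D i).basis|) atTop atTop ∧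
      IsClosed Y ∧
      (∀ i, (packetSupport (D i)).Nonempty ∧ packetSupport (D i) ⊆ Y) ∧
      (∀ m : Measure (X n), IsProbabilityMeasure m →
        (∀ h : Matrix.SpecialLinearGroup (Fin n) ℝ, Measure.map (rightMul h) m = m) →
        m Y = 0) ∧
      (∀ (μ : ℕ → Measure (X n)) (ν : Measure (X n)),
        (∀ i, ∀ᵐ x ∂(μ i), x ∈ packetSupport (D i)) →
        IsFiniteMeasureOnCompacts ν →
        ∀ φ : ℕ → ℕ, StrictMono φ →
          (∀ f : X n → ℝ, Continuous f → HasCompactSupport f →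
            Tendsto (fun i => ∫ x, f x ∂(μ (φ i))) atTop (𝓝 (∫ x, f x ∂ν))) →
          ν Yᶜ = 0) ∧
      ∀ (μ : ℕ → Measure (X n)) (m : Measure (X n)),
        (∀ i, ∀ᵐ x ∂(μ i), x ∈ packetSupport (D i)) →
        IsProbabilityMeasure m →
        (∀ h : Matrix.SpecialLinearGroup (Fin n) ℝ, Measure.map (rightMul h) m = m) →
        ∀ φ : ℕ → ℕ, StrictMono φ →
          ¬ ∀ f : X n → ℝ, Continuous f → HasCompactSupport f →
            Tendsto (fun i => ∫ x, f x ∂(μ (φ i))) atTop (𝓝 (∫ x, f x ∂m)) := by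
  have hn0 : NeZero n := by
    obtain ⟨d, e, hd, he, rfl⟩ := hn
    exact ⟨(Nat.mul_pos (by omega) (by omega)).ne'⟩
  obtain ⟨P, D, hP0, hP, hmax, hD, hdisc⟩ := maximal_data n hn
  obtain ⟨Y, hYc, hYsub, hY0⟩ := exists_closed_null_trap P hP0 hP D hD
  refine ⟨D, Y, hmax, hdisc, hYc, fun i => ⟨packetSupport_nonempty (D i), hYsub i⟩, hY0, ?_,
    fun μ m hμ hm hinv φ _ => no_vague_convergence_subseq P hP0 hP D hD μ m hμ hm hinv φ⟩
  intro μ ν hμ hν φ _ hconv
  refine limit_compl_null Y hYc (fun i => μ (φ i)) ν (Frequently.of_forall fun i => ?_) hconv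
  filter_upwards [hμ (φ i)] with x hx
  exact hYsub (φ i) hx

end Vale.Agent.Lib.P007
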