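import Vale.Agent.Lib.P007.Topology

namespace Vale.Agent.Lib.P007

open Matrix MeasureTheory Topology Filter

/-- Points of `X_n` whose lattice is stable under right multiplication by the matrix `E`. -/
def stab {n : ℕ} (E : Matrix (Fin n) (Fin n) ℝ) : Set (X n) :=
  {x | ∃ (g : Matrix.SpecialLinearGroup (Fin n) ℝ) (B : Matrix (Fin n) (Fin n) ℤ), cls g = x ∧
      (g : Matrix (Fin n) (Fin n) ℝ) * E =
        B.map (Int.castRingHom ℝ) * (g : Matrix (Fin n) (Fin n) ℝ)}

theorem coe_mul_coe_inv {n : ℕ} (g : Matrix.SpecialLinearGroup (Fin n) ℝ) :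
    (g : Matrix (Fin n) (Fin n) ℝ) * ((g⁻¹ : Matrix.SpecialLinearGroup (Fin n) ℝ) :
      Matrix (Fin n) (Fin n) ℝ) = 1 := by
  rw [← Matrix.SpecialLinearGroup.coe_mul, mul_inv_cancel, Matrix.SpecialLinearGroup.coe_one]

theorem coe_inv_mul_coe {n : ℕ} (g : Matrix.SpecialLinearGroup (Fin n) ℝ) :
    ((g⁻¹ : Matrix.SpecialLinearGroup (Fin n) ℝ) : Matrix (Fin n) (Fin n) ℝ) *
      (g : Matrix (Fin n) (Fin n) ℝ) = 1 := by
  rw [← Matrix.SpecialLinearGroup.coe_mul, inv_mul_cancel, Matrix.SpecialLinearGroup.coe_one]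

theorem cls_mem_stab_iff {n : ℕ} (E : Matrix (Fin n) (Fin n) ℝ)
    (g : Matrix.SpecialLinearGroup (Fin n) ℝ) :
    cls g ∈ stab E ↔ ∃ B : Matrix (Fin n) (Fin n) ℤ,
      (g : Matrix (Fin n) (Fin n) ℝ) * E =
        B.map (Int.castRingHom ℝ) * (g : Matrix (Fin n) (Fin n) ℝ) := by
  constructor
  · rintro ⟨g', B', hcls, hB'⟩
    rw [cls_eq_iff] at hcls
    obtain ⟨γ, hγ⟩ := hcls
    have hg' : (g' : Matrix (Fin n) (Fin n) ℝ) =
        (γ : Matrix (Fin n) (Fin n) ℤ).map (Int.castRingHom ℝ) *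
          (g : Matrix (Fin n) (Fin n) ℝ) := by
      have h1 : g' = Matrix.SpecialLinearGroup.map (Int.castRingHom ℝ) γ * g := by
        rw [hγ]; simp
      rw [h1, Matrix.SpecialLinearGroup.coe_mul, Matrix.SpecialLinearGroup.map_apply_coe]
      rfl
    have hγinv : ((γ⁻¹ : Matrix.SpecialLinearGroup (Fin n) ℤ) : Matrix (Fin n) (Fin n) ℤ).map
        (Int.castRingHom ℝ) * (γ : Matrix (Fin n) (Fin n) ℤ).map (Int.castRingHom ℝ) = 1 := by
      rw [← Matrix.map_mul, ← Matrix.SpecialLinearGroup.coe_mul, inv_mul_cancel,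
        Matrix.SpecialLinearGroup.coe_one]
      simp
    refine ⟨((γ⁻¹ : Matrix.SpecialLinearGroup (Fin n) ℤ) : Matrix (Fin n) (Fin n) ℤ) * B' *
      (γ : Matrix (Fin n) (Fin n) ℤ), ?_⟩
    rw [Matrix.map_mul, Matrix.map_mul]
    rw [hg'] at hB'
    calc (g : Matrix (Fin n) (Fin n) ℝ) * E
        = (((γ⁻¹ : Matrix.SpecialLinearGroup (Fin n) ℤ) : Matrix (Fin n) (Fin n) ℤ).map
            (Int.castRingHom ℝ) * (γ : Matrix (Fin n) (Fin n) ℤ).map (Int.castRingHom ℝ)) *
            (g : Matrix (Fin n) (Fin n) ℝ) * E := by rw [hγinv, Matrix.one_mul]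
      _ = ((γ⁻¹ : Matrix.SpecialLinearGroup (Fin n) ℤ) : Matrix (Fin n) (Fin n) ℤ).map
            (Int.castRingHom ℝ) * ((γ : Matrix (Fin n) (Fin n) ℤ).map (Int.castRingHom ℝ) *
            (g : Matrix (Fin n) (Fin n) ℝ) * E) := by simp only [Matrix.mul_assoc]
      _ = _ := by rw [hB']; simp only [Matrix.mul_assoc]
  · rintro ⟨B, hB⟩
    exact ⟨g, B, rfl, hB⟩

theorem preimage_rightMul_stab {n : ℕ} (E : Matrix (Fin n) (Fin n) ℝ)
    (h : Matrix.SpecialLinearGroup (Fin n) ℝ) :
    rightMul h ⁻¹' stab E = stab ((h : Matrix (Fin n) (Fin n) ℝ) * E *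
      ((h⁻¹ : Matrix.SpecialLinearGroup (Fin n) ℝ) : Matrix (Fin n) (Fin n) ℝ)) := by
  ext x
  obtain ⟨g, rfl⟩ := cls_surjective n x
  rw [Set.mem_preimage, rightMul_cls, cls_mem_stab_iff, cls_mem_stab_iff,
    Matrix.SpecialLinearGroup.coe_mul]
  constructor
  · rintro ⟨B, hB⟩
    refine ⟨B, ?_⟩
    calc (g : Matrix (Fin n) (Fin n) ℝ) * ((h : Matrix (Fin n) (Fin n) ℝ) * E *
          ((h⁻¹ : Matrix.SpecialLinearGroup (Fin n) ℝ) : Matrix (Fin n) (Fin n) ℝ))
        = ((g : Matrix (Fin n) (Fin n) ℝ) * (h : Matrix (Fin n) (Fin n) ℝ) * E) *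
          ((h⁻¹ : Matrix.SpecialLinearGroup (Fin n) ℝ) : Matrix (Fin n) (Fin n) ℝ) := by
          simp only [Matrix.mul_assoc]
      _ = B.map (Int.castRingHom ℝ) * (g : Matrix (Fin n) (Fin n) ℝ) *
          ((h : Matrix (Fin n) (Fin n) ℝ) *
          ((h⁻¹ : Matrix.SpecialLinearGroup (Fin n) ℝ) : Matrix (Fin n) (Fin n) ℝ)) := by
          rw [hB]; simp only [Matrix.mul_assoc]
      _ = _ := by rw [coe_mul_coe_inv, Matrix.mul_one]
  · rintro ⟨B, hB⟩
    refine ⟨B, ?_⟩
    calc (g : Matrix (Fin n) (Fin n) ℝ) * (h : Matrix (Fin n) (Fin n) ℝ) * E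
        = (g : Matrix (Fin n) (Fin n) ℝ) * ((h : Matrix (Fin n) (Fin n) ℝ) * E *
          ((h⁻¹ : Matrix.SpecialLinearGroup (Fin n) ℝ) : Matrix (Fin n) (Fin n) ℝ)) *
          (h : Matrix (Fin n) (Fin n) ℝ) := by
          simp only [Matrix.mul_assoc, coe_inv_mul_coe, Matrix.mul_one]
      _ = _ := by rw [hB]; simp only [Matrix.mul_assoc]

theorem trace_int_of_mem_stab {n : ℕ} (E E' : Matrix (Fin n) (Fin n) ℝ) (x : X n)
    (hx : x ∈ stab E) (hx' : x ∈ stab E') : ∃ z : ℤ, trace (E * E') = (z : ℝ) := by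
  obtain ⟨g, rfl⟩ := cls_surjective n x
  rw [cls_mem_stab_iff] at hx hx'
  obtain ⟨B, hB⟩ := hx
  obtain ⟨B', hB'⟩ := hx'
  refine ⟨trace (B * B'), ?_⟩
  have h1 : (g : Matrix (Fin n) (Fin n) ℝ) * (E * E') =
      (B * B').map (Int.castRingHom ℝ) * (g : Matrix (Fin n) (Fin n) ℝ) := by
    rw [← Matrix.mul_assoc, hB, Matrix.mul_assoc, hB', ← Matrix.mul_assoc, Matrix.map_mul]
  have h2 : E * E' = ((g⁻¹ : Matrix.SpecialLinearGroup (Fin n) ℝ) : Matrix (Fin n) (Fin n) ℝ) *
      ((B * B').map (Int.castRingHom ℝ) * (g : Matrix (Fin n) (Fin n) ℝ)) := by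
    rw [← h1, ← Matrix.mul_assoc, coe_inv_mul_coe, Matrix.one_mul]
  rw [h2, Matrix.trace_mul_comm, Matrix.mul_assoc, coe_mul_coe_inv, Matrix.mul_one]
  simp [Matrix.trace, Matrix.map_apply]

theorem isClosed_stab {n : ℕ} (E : Matrix (Fin n) (Fin n) ℝ) : IsClosed (stab E) := by
  rw [← (isOpenQuotientMap_cls n).isQuotientMap.isClosed_preimage]
  have h : cls ⁻¹' stab E = (fun g : Matrix.SpecialLinearGroup (Fin n) ℝ =>
      (g : Matrix (Fin n) (Fin n) ℝ) * E *
        ((g⁻¹ : Matrix.SpecialLinearGroup (Fin n) ℝ) : Matrix (Fin n) (Fin n) ℝ)) ⁻¹'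
      Set.range (fun B : Matrix (Fin n) (Fin n) ℤ => B.map (Int.cast : ℤ → ℝ)) := by
    ext g
    rw [Set.mem_preimage, cls_mem_stab_iff]
    constructor
    · rintro ⟨B, hB⟩
      refine ⟨B, ?_⟩
      have h1 : B.map (Int.cast : ℤ → ℝ) = B.map (Int.castRingHom ℝ) := rfl
      beta_reduce
      rw [h1, hB, Matrix.mul_assoc, coe_mul_coe_inv, Matrix.mul_one]
    · rintro ⟨B, hB⟩
      refine ⟨B, ?_⟩
      have h1 : B.map (Int.castRingHom ℝ) = B.map (Int.cast : ℤ → ℝ) := rfl
      beta_reduce at hB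
      rw [h1, hB]
      simp only [Matrix.mul_assoc, coe_inv_mul_coe, Matrix.mul_one]
  rw [h]
  have hc : Continuous (fun g : Matrix.SpecialLinearGroup (Fin n) ℝ =>
      (g : Matrix (Fin n) (Fin n) ℝ) * E *
        ((g⁻¹ : Matrix.SpecialLinearGroup (Fin n) ℝ) : Matrix (Fin n) (Fin n) ℝ)) := by
    have hval : Continuous (fun g : Matrix.SpecialLinearGroup (Fin n) ℝ =>
        (g : Matrix (Fin n) (Fin n) ℝ)) := continuous_subtype_val
    exact (hval.matrix_mul continuous_const).matrix_mul (hval.comp continuous_inv)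
  exact (Int.isClosedEmbedding_coe_real.matrix_map).isClosed_range.preimage hc

theorem measurableSet_stab {n : ℕ} (E : Matrix (Fin n) (Fin n) ℝ) : MeasurableSet (stab E) :=
  (isClosed_stab E).measurableSet

theorem measure_stab_conj {n : ℕ} (m : Measure (X n))
    (hinv : ∀ h : Matrix.SpecialLinearGroup (Fin n) ℝ, Measure.map (rightMul h) m = m)
    (E : Matrix (Fin n) (Fin n) ℝ) (h : Matrix.SpecialLinearGroup (Fin n) ℝ) :
    m (stab ((h : Matrix (Fin n) (Fin n) ℝ) * E *
      ((h⁻¹ : Matrix.SpecialLinearGroup (Fin n) ℝ) : Matrix (Fin n) (Fin n) ℝ))) = m (stab E) := by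
  rw [← preimage_rightMul_stab, ← Measure.map_apply (measurable_rightMul h) (measurableSet_stab E),
    hinv h]

/-- A transvection as an element of `SL_n(ℝ)`. -/
def tv {n : ℕ} (p q : Fin n) (hpq : p ≠ q) (c : ℝ) : Matrix.SpecialLinearGroup (Fin n) ℝ :=
  ⟨Matrix.transvection p q c, Matrix.det_transvection_of_ne p q hpq c⟩

theorem coe_tv {n : ℕ} (p q : Fin n) (hpq : p ≠ q) (c : ℝ) :
    (tv p q hpq c : Matrix (Fin n) (Fin n) ℝ) = Matrix.transvection p q c := rfl

theorem tv_inv {n : ℕ} (p q : Fin n) (hpq : p ≠ q) (c : ℝ) :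
    (tv p q hpq c)⁻¹ = tv p q hpq (-c) := by
  apply inv_eq_of_mul_eq_one_right
  apply Subtype.ext
  show Matrix.transvection p q c * Matrix.transvection p q (-c) = 1
  rw [Matrix.transvection_mul_transvection_same p q hpq, add_neg_cancel,
    Matrix.transvection_zero]

theorem trace_mul_conj_transvection {n : ℕ} (X : Matrix (Fin n) (Fin n) ℝ) (p q : Fin n)
    (hpq : p ≠ q) (c : ℝ) :
    trace (X * (transvection p q (-c) * X * transvection p q c)) =
      trace (X * X) - c ^ 2 * (X q p) ^ 2 := by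
  have hA : transvection p q (-c) = 1 - Matrix.single p q c := by
    simp [transvection, sub_eq_add_neg, Matrix.single_neg]
  have hB : transvection p q c = 1 + Matrix.single p q c := rfl
  rw [hA, hB]
  have e : (1 - Matrix.single p q c) * X * (1 + Matrix.single p q c) =
      X + X * Matrix.single p q c - Matrix.single p q c * X -
        Matrix.single p q c * X * Matrix.single p q c := by
    noncomm_ring
  rw [e, Matrix.single_mul_mul_single]
  simp only [Matrix.mul_add, Matrix.mul_sub, Matrix.trace_add, Matrix.trace_sub]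
  have h1 : trace (X * (Matrix.single p q c * X)) = trace (X * (X * Matrix.single p q c)) := by
    rw [← Matrix.mul_assoc, Matrix.trace_mul_comm]
  rw [h1, Matrix.trace_mul_single]
  simp only [op_smul_eq_mul]
  ring

theorem trace_conj_pair {n : ℕ} (X : Matrix (Fin n) (Fin n) ℝ) (p q : Fin n)
    (hpq : p ≠ q) (s t : ℝ) :
    trace ((transvection p q (-s) * X * transvection p q s) *
      (transvection p q (-t) * X * transvection p q t)) =
      trace (X * X) - (t - s) ^ 2 * (X q p) ^ 2 := by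
  have h1 : transvection p q s * transvection p q (-t) = transvection p q (-(t - s)) := by
    rw [Matrix.transvection_mul_transvection_same p q hpq]; congr 1; ring
  have h2 : transvection p q t * transvection p q (-s) = transvection p q (t - s) := by
    rw [Matrix.transvection_mul_transvection_same p q hpq]; congr 1
  have e1 : (transvection p q (-s) * X * transvection p q s) *
      (transvection p q (-t) * X * transvection p q t) =
      transvection p q (-s) * (X * (transvection p q s * transvection p q (-t)) * X *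
        transvection p q t) := by
    simp only [Matrix.mul_assoc]
  rw [e1, Matrix.trace_mul_comm, h1]
  have e2 : X * transvection p q (-(t - s)) * X * transvection p q t * transvection p q (-s) =
      X * (transvection p q (-(t - s)) * X * (transvection p q t * transvection p q (-s))) := by
    simp only [Matrix.mul_assoc]
  rw [e2, h2]
  exact trace_mul_conj_transvection X p q hpq (t - s)

theorem conj_diag_entry {n : ℕ} (d : Fin n → ℝ) (p q : Fin n) (hpq : p ≠ q) :
    (transvection q p (-1) * diagonal d * transvection q p (1 : ℝ) :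
      Matrix (Fin n) (Fin n) ℝ) q p = d q - d p := by
  rw [Matrix.mul_transvection_apply_same, Matrix.transvection_mul_apply_same,
    Matrix.transvection_mul_apply_same]
  simp [Matrix.diagonal_apply, hpq, hpq.symm]
  ring

theorem trace_conj_diag_sq {n : ℕ} (d : Fin n → ℝ) (p q : Fin n) (hpq : p ≠ q) :
    trace ((transvection q p (-1) * diagonal d * transvection q p (1 : ℝ)) *
      (transvection q p (-1) * diagonal d * transvection q p (1 : ℝ))) =
      trace (diagonal d * diagonal d) := by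
  have h1 : transvection q p (1 : ℝ) * transvection q p (-1) = 1 := by
    rw [Matrix.transvection_mul_transvection_same q p hpq.symm, add_neg_cancel,
      Matrix.transvection_zero]
  have e1 : (transvection q p (-1) * diagonal d * transvection q p (1 : ℝ)) *
      (transvection q p (-1) * diagonal d * transvection q p (1 : ℝ)) =
      transvection q p (-1) * (diagonal d * (transvection q p (1 : ℝ) * transvection q p (-1)) *
        diagonal d * transvection q p (1 : ℝ)) := by
    simp only [Matrix.mul_assoc]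
  rw [e1, Matrix.trace_mul_comm, h1, Matrix.mul_one, Matrix.mul_assoc, h1, Matrix.mul_one]

theorem measure_stab_diagonal_null {n : ℕ} (m : Measure (X n)) [IsProbabilityMeasure m]
    (hinv : ∀ h : Matrix.SpecialLinearGroup (Fin n) ℝ, Measure.map (rightMul h) m = m)
    (d : Fin n → ℝ) (p q : Fin n) (hd : d p ≠ d q) : m (stab (diagonal d)) = 0 := by
  have hpq : p ≠ q := fun h => hd (h ▸ rfl)
  by_contra hne
  have hne' : (stab (diagonal d)).Nonempty := by
    by_contra h
    rw [Set.not_nonempty_iff_eq_empty] at h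
    exact hne (by rw [h, measure_empty])
  obtain ⟨x, hx⟩ := hne'
  obtain ⟨z, hz⟩ := trace_int_of_mem_stab _ _ x hx hx
  have hδ0 : d q - d p ≠ 0 := sub_ne_zero.mpr (Ne.symm hd)
  let E : ℝ → Matrix (Fin n) (Fin n) ℝ := fun t =>
    transvection p q (-t) * (transvection q p (-1) * diagonal d * transvection q p (1 : ℝ)) *
      transvection p q t
  have hmeas : ∀ t, m (stab (E t)) = m (stab (diagonal d)) := by
    intro t
    have hinv' : (tv p q hpq (-t) * tv q p hpq.symm (-1))⁻¹ =
        tv q p hpq.symm 1 * tv p q hpq t := by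
      rw [_root_.mul_inv_rev, tv_inv, tv_inv, neg_neg, neg_neg]
    have hE : E t = ((tv p q hpq (-t) * tv q p hpq.symm (-1) :
        Matrix.SpecialLinearGroup (Fin n) ℝ) : Matrix (Fin n) (Fin n) ℝ) * diagonal d *
        (((tv p q hpq (-t) * tv q p hpq.symm (-1))⁻¹ :
        Matrix.SpecialLinearGroup (Fin n) ℝ) : Matrix (Fin n) (Fin n) ℝ) := by
      rw [hinv', Matrix.SpecialLinearGroup.coe_mul, Matrix.SpecialLinearGroup.coe_mul]
      simp only [coe_tv, E, Matrix.mul_assoc]
    rw [hE]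
    exact measure_stab_conj m hinv _ _
  have htr : ∀ s t, trace (E s * E t) = (z : ℝ) - (t - s) ^ 2 * (d q - d p) ^ 2 := by
    intro s t
    simp only [E]
    rw [trace_conj_pair _ p q hpq s t, conj_diag_entry d p q hpq, trace_conj_diag_sq d p q hpq, hz]
  set ε : ℝ := 1 / (|d q - d p| + 1) with hε
  have hεpos : 0 < ε := by positivity
  have hεδ : ε * |d q - d p| < 1 := by
    rw [hε, div_mul_eq_mul_div, one_mul, div_lt_one (by positivity)]
    linarith
  let t : ℕ → ℝ := fun k => ε / (k + 1)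
  have htpos : ∀ k, 0 < t k := fun k => by positivity
  have htle : ∀ k, t k ≤ ε := fun k => by
    simp only [t]
    rw [div_le_iff₀ (by positivity)]
    nlinarith [Nat.cast_nonneg (α := ℝ) k]
  have htinj : ∀ j k, j ≠ k → t j ≠ t k := by
    intro j k hjk h
    simp only [t] at h
    rw [div_eq_div_iff (by positivity) (by positivity)] at h
    have : (k : ℝ) + 1 = j + 1 := mul_left_cancel₀ hεpos.ne' h
    exact hjk (by exact_mod_cast (add_right_cancel this).symm)
  have hdisj : Pairwise (Function.onFun Disjoint fun k => stab (E (t k))) := by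
    intro j k hjk
    rw [Function.onFun, Set.disjoint_left]
    intro y hy hy'
    obtain ⟨z', hz'⟩ := trace_int_of_mem_stab _ _ y hy hy'
    rw [htr] at hz'
    have hc0 : t k - t j ≠ 0 := sub_ne_zero.mpr (Ne.symm (htinj j k hjk))
    have hclt : |t k - t j| < ε := by
      rw [abs_lt]
      constructor <;> linarith [htpos j, htpos k, htle j, htle k]
    have hpos : 0 < (t k - t j) ^ 2 * (d q - d p) ^ 2 := by positivity
    have hlt : (t k - t j) ^ 2 * (d q - d p) ^ 2 < 1 := by
      rw [← mul_pow, sq_lt_one_iff_abs_lt_one, abs_mul]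
      calc |t k - t j| * |d q - d p| ≤ ε * |d q - d p| :=
            mul_le_mul_of_nonneg_right hclt.le (abs_nonneg _)
        _ < 1 := hεδ
    have h1 : ((z - z' : ℤ) : ℝ) = (t k - t j) ^ 2 * (d q - d p) ^ 2 := by
      push_cast; linarith
    have h2 : (0 : ℝ) < ((z - z' : ℤ) : ℝ) := by rw [h1]; exact hpos
    have h3 : ((z - z' : ℤ) : ℝ) < 1 := by rw [h1]; exact hlt
    have h4 : 0 < z - z' := by exact_mod_cast h2
    have h5 : z - z' < 1 := by exact_mod_cast h3
    omega
  have hU := measure_iUnion (μ := m) hdisj (fun k => measurableSet_stab (E (t k)))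
  simp only [hmeas] at hU
  rw [ENNReal.tsum_const_eq_top_of_ne_zero hne] at hU
  exact measure_ne_top m _ hU

end Vale.Agent.Lib.P007
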