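import Vale.Agent.Lib.P007.Tower

namespace Vale.Agent.Lib.P007

open Polynomial

/-- Eisenstein at `2`, in the form used here. -/
theorem irreducible_map_of_mod_two (h : Polynomial ℤ) (hh : h.Monic) (n : ℕ) (hn : h.natDegree = n)
    (hn0 : 0 < n) (hmod : h.map (Int.castRingHom (ZMod 2)) = (Polynomial.X : Polynomial (ZMod 2)) ^ n)
    (h0 : ¬ (4 : ℤ) ∣ h.coeff 0) : Irreducible (h.map (Int.castRingHom ℚ)) := by
  have hprim : h.IsPrimitive := hh.isPrimitive
  rw [← Polynomial.IsPrimitive.Int.irreducible_iff_irreducible_map_cast hprim]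
  have hE : h.IsEisensteinAt (Ideal.span {(2 : ℤ)}) := by
    refine ⟨?_, ?_, ?_⟩
    · rw [hh.leadingCoeff, Ideal.mem_span_singleton]
      norm_num
    · intro k hk
      rw [Ideal.mem_span_singleton]
      have h1 : (h.map (Int.castRingHom (ZMod 2))).coeff k = 0 := by
        rw [hmod, coeff_X_pow, if_neg (by omega)]
      rw [coeff_map] at h1
      exact (ZMod.intCast_zmod_eq_zero_iff_dvd _ 2).mp h1
    · rw [Ideal.span_singleton_pow, Ideal.mem_span_singleton]
      exact h0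
  exact hE.irreducible ((Ideal.span_singleton_prime (by norm_num)).mpr Int.prime_two) hprim
    (by omega)

theorem quartic_irreducible :
    Irreducible ((((Polynomial.X : Polynomial ℤ) ^ 2 - C 2).comp
      ((Polynomial.X : Polynomial ℤ) ^ 2 - C 2)).map (Int.castRingHom ℚ)) := by
  have hm : ((Polynomial.X : Polynomial ℤ) ^ 2 - C 2).Monic := monic_X_pow_sub_C 2 (by norm_num)
  have hd : ((Polynomial.X : Polynomial ℤ) ^ 2 - C 2).natDegree = 2 := natDegree_X_pow_sub_C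
  refine irreducible_map_of_mod_two _ (hm.comp hm (by rw [hd]; norm_num)) 4
    (by rw [natDegree_comp, hd]) (by norm_num) ?_ ?_
  · have h2 : ((2 : ℤ) : ZMod 2) = 0 := by decide
    have h1 : ((Polynomial.X : Polynomial ℤ) ^ 2 - C 2).map (Int.castRingHom (ZMod 2)) =
        (Polynomial.X : Polynomial (ZMod 2)) ^ 2 := by
      rw [Polynomial.map_sub, Polynomial.map_pow, map_X, map_C, eq_intCast, h2, C_0, sub_zero]
    rw [map_comp, h1, X_pow_comp, ← pow_mul]
  · rw [coeff_zero_eq_eval_zero, eval_comp]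
    norm_num

theorem quartic_no_int_root (z : ℤ) : ((Polynomial.X : Polynomial ℤ) ^ 2 - C 2).eval z ≠ 0 := by
  simp only [eval_sub, eval_pow, eval_X, eval_C]
  intro h
  have h1 : z ^ 2 = 2 := by linarith
  rcases le_or_gt z 1 with h2 | h2
  · rcases le_or_gt (-1) z with h3 | h3
    · interval_cases z <;> norm_num at h1
    · nlinarith
  · nlinarith

/-- The four real roots of `x^4 - 4 x^2 + 2`. -/
noncomputable def quarticRoots : Fin 4 → ℝ :=
  ![-Real.sqrt (2 + Real.sqrt 2), -Real.sqrt (2 - Real.sqrt 2), Real.sqrt (2 - Real.sqrt 2),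
    Real.sqrt (2 + Real.sqrt 2)]

theorem sqrt_two_lt_two : Real.sqrt 2 < 2 := by
  rw [Real.sqrt_lt' (by norm_num)]
  norm_num

theorem quarticRoots_injective : Function.Injective quarticRoots := by
  have h0 : (0 : ℝ) < Real.sqrt 2 := Real.sqrt_pos.mpr (by norm_num)
  have h1 : 0 < Real.sqrt (2 - Real.sqrt 2) :=
    Real.sqrt_pos.mpr (by linarith [sqrt_two_lt_two])
  have h2 : Real.sqrt (2 - Real.sqrt 2) < Real.sqrt (2 + Real.sqrt 2) :=
    Real.sqrt_lt_sqrt (by linarith [sqrt_two_lt_two]) (by linarith)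
  apply StrictMono.injective
  rw [Fin.strictMono_iff_lt_succ]
  intro i
  fin_cases i
  · show -Real.sqrt (2 + Real.sqrt 2) < -Real.sqrt (2 - Real.sqrt 2)
    linarith
  · show -Real.sqrt (2 - Real.sqrt 2) < Real.sqrt (2 - Real.sqrt 2)
    linarith
  · show Real.sqrt (2 - Real.sqrt 2) < Real.sqrt (2 + Real.sqrt 2)
    exact h2

theorem quartic_aeval (r : ℝ) (hr : (r ^ 2 - 2) ^ 2 - 2 = 0) :
    aeval r (((Polynomial.X : Polynomial ℤ) ^ 2 - C 2).comp
      ((Polynomial.X : Polynomial ℤ) ^ 2 - C 2)) = 0 := by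
  rw [aeval_comp]
  simp only [map_sub, map_pow, aeval_X, aeval_C, eq_intCast, Int.cast_ofNat, map_ofNat]
  exact hr

theorem quarticRoots_root (k : Fin 4) :
    aeval (quarticRoots k) (((Polynomial.X : Polynomial ℤ) ^ 2 - C 2).comp
      ((Polynomial.X : Polynomial ℤ) ^ 2 - C 2)) = 0 := by
  have hs : Real.sqrt 2 ^ 2 = 2 := Real.sq_sqrt (by norm_num)
  have hp : Real.sqrt (2 + Real.sqrt 2) ^ 2 = 2 + Real.sqrt 2 :=
    Real.sq_sqrt (by positivity)
  have hm : Real.sqrt (2 - Real.sqrt 2) ^ 2 = 2 - Real.sqrt 2 :=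
    Real.sq_sqrt (by linarith [sqrt_two_lt_two])
  apply quartic_aeval
  fin_cases k
  · show ((-Real.sqrt (2 + Real.sqrt 2)) ^ 2 - 2) ^ 2 - 2 = 0
    rw [neg_sq, hp]; ring_nf; rw [hs]; ring
  · show ((-Real.sqrt (2 - Real.sqrt 2)) ^ 2 - 2) ^ 2 - 2 = 0
    rw [neg_sq, hm]; ring_nf; rw [hs]; ring
  · show ((Real.sqrt (2 - Real.sqrt 2)) ^ 2 - 2) ^ 2 - 2 = 0
    rw [hm]; ring_nf; rw [hs]; ring
  · show ((Real.sqrt (2 + Real.sqrt 2)) ^ 2 - 2) ^ 2 - 2 = 0
    rw [hp]; ring_nf; rw [hs]; ring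

theorem quartic_sequence : ∃ D : ℕ → OrderDatum 4,
    (∀ i, ∃ r ∈ (D i).O, aeval r ((Polynomial.X : Polynomial ℤ) ^ 2 - C 2) = 0) ∧
    Filter.Tendsto (fun i => |Algebra.discr ℚ (D i).basis|) Filter.atTop Filter.atTop := by
  have hm : ((Polynomial.X : Polynomial ℤ) ^ 2 - C 2).Monic := monic_X_pow_sub_C 2 (by norm_num)
  have hd : ((Polynomial.X : Polynomial ℤ) ^ 2 - C 2).natDegree = 2 := natDegree_X_pow_sub_C
  exact exists_tower_sequence _ _ hm hm (by rw [hd]) (by rw [hd]; norm_num) 4 (by rw [hd])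
    quartic_irreducible quarticRoots quarticRoots_injective quarticRoots_root

theorem quartic_ne_zero : ((Polynomial.X : Polynomial ℤ) ^ 2 - C 2) ≠ 0 :=
  (monic_X_pow_sub_C 2 (by norm_num)).ne_zero

end Vale.Agent.Lib.P007
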