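import Vale.Agent.Lib.P007.Defs

namespace Vale.Agent.Lib.P007

open Matrix MeasureTheory Topology Filter

instance instLocallyCompactSL (n : ℕ) : LocallyCompactSpace (Matrix.SpecialLinearGroup (Fin n) ℝ) :=
  haveI : LocallyCompactSpace (Matrix (Fin n) (Fin n) ℝ) :=
    inferInstanceAs (LocallyCompactSpace (Fin n → Fin n → ℝ))
  Matrix.SpecialLinearGroup.isClosedEmbedding_val.locallyCompactSpace

instance instSecondCountableSL (n : ℕ) :
    SecondCountableTopology (Matrix.SpecialLinearGroup (Fin n) ℝ) :=
  haveI : SecondCountableTopology (Matrix (Fin n) (Fin n) ℝ) :=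
    inferInstanceAs (SecondCountableTopology (Fin n → Fin n → ℝ))
  Matrix.SpecialLinearGroup.isClosedEmbedding_val.isEmbedding.secondCountableTopology

theorem isClosed_Gamma (n : ℕ) : IsClosed (Gamma n : Set (Matrix.SpecialLinearGroup (Fin n) ℝ)) := by
  have h : IsClosedEmbedding (Matrix.SpecialLinearGroup.map (n := Fin n) (Int.castRingHom ℝ)) :=
    Topology.IsClosedEmbedding.specialLinearGroup_map Int.isClosedEmbedding_coe_real
  have h2 : (Gamma n : Set (Matrix.SpecialLinearGroup (Fin n) ℝ)) =
      Set.range (Matrix.SpecialLinearGroup.map (n := Fin n) (Int.castRingHom ℝ)) := by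
    ext g; simp [Gamma]
  rw [h2]
  exact h.isClosed_range

theorem cls_eq_iff {n : ℕ} (g g' : Matrix.SpecialLinearGroup (Fin n) ℝ) :
    cls g = cls g' ↔ g * g'⁻¹ ∈ Gamma n := by
  constructor
  · intro h
    obtain ⟨γ, rfl⟩ := Quotient.exact h
    simp [Subgroup.smul_def]
  · intro h
    exact Quotient.sound ⟨⟨g * g'⁻¹, h⟩, by simp [Subgroup.smul_def]⟩

theorem isOpenQuotientMap_cls (n : ℕ) : IsOpenQuotientMap (cls (n := n)) :=
  MulAction.isOpenQuotientMap_quotientMk

theorem cls_surjective (n : ℕ) : Function.Surjective (cls (n := n)) :=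
  (isOpenQuotientMap_cls n).surjective

theorem continuous_cls (n : ℕ) : Continuous (cls (n := n)) :=
  (isOpenQuotientMap_cls n).continuous

instance instT2SpaceX (n : ℕ) : T2Space (X n) := by
  rw [t2Space_iff_of_isOpenQuotientMap (isOpenQuotientMap_cls n)]
  have h : {q : Matrix.SpecialLinearGroup (Fin n) ℝ × Matrix.SpecialLinearGroup (Fin n) ℝ |
      cls q.1 = cls q.2} = (fun q : Matrix.SpecialLinearGroup (Fin n) ℝ × Matrix.SpecialLinearGroup (Fin n) ℝ =>
        q.1 * q.2⁻¹) ⁻¹' (Gamma n : Set (Matrix.SpecialLinearGroup (Fin n) ℝ)) := by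
    ext q
    simp [cls_eq_iff]
  rw [h]
  exact (isClosed_Gamma n).preimage (by fun_prop)

instance instLocallyCompactX (n : ℕ) : LocallyCompactSpace (X n) :=
  (isOpenQuotientMap_cls n).locallyCompactSpace

instance instSecondCountableX (n : ℕ) : SecondCountableTopology (X n) :=
  ContinuousConstSMul.secondCountableTopology

theorem rightMul_cls {n : ℕ} (h g : Matrix.SpecialLinearGroup (Fin n) ℝ) :
    rightMul h (cls g) = cls (g * h) := rfl

theorem continuous_rightMul {n : ℕ} (h : Matrix.SpecialLinearGroup (Fin n) ℝ) :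
    Continuous (rightMul (n := n) h) := by
  rw [(isOpenQuotientMap_cls n).isQuotientMap.continuous_iff]
  have : rightMul h ∘ cls (n := n) = cls ∘ fun g => g * h := by
    funext g; rfl
  rw [this]
  exact (continuous_cls n).comp (by fun_prop)

theorem measurable_rightMul {n : ℕ} (h : Matrix.SpecialLinearGroup (Fin n) ℝ) :
    Measurable (rightMul (n := n) h) :=
  (continuous_rightMul h).measurable

example (n : ℕ) : T3Space (X n) := inferInstance
example (n : ℕ) : TopologicalSpace.PseudoMetrizableSpace (X n) := inferInstance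
example (n : ℕ) : SigmaCompactSpace (X n) := inferInstance
example (n : ℕ) (m : Measure (X n)) [IsFiniteMeasure m] : m.Regular := inferInstance

end Vale.Agent.Lib.P007
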