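import Vale.Agent.Lib.P007.Trap

namespace Vale.Agent.Lib.P007

open Polynomial

section Span

variable {K : Type} [CommRing K]

/-- The candidate basis vectors of the order `ℤ[f(θ)] + m ℤ[θ]`. -/
noncomputable def bvec (θ : K) (f : Polynomial ℤ) (m : ℤ) (k : ℕ) : K :=
  if f.natDegree ∣ k then aeval θ (f ^ (k / f.natDegree)) else (m : K) * θ ^ k

theorem aeval_eq_aeval_modByMonic (x : K) (p q : Polynomial ℤ) (hq : aeval x q = 0) :
    aeval x p = aeval x (p %ₘ q) := by
  conv_lhs => rw [← modByMonic_add_div p q]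
  rw [map_add, map_mul, hq, zero_mul, add_zero]

theorem aeval_beta_mem_span (θ : K) (f g : Polynomial ℤ) (m : ℤ) (n : ℕ)
    (hd : 0 < f.natDegree) (hg : g.Monic) (he : 0 < g.natDegree)
    (hn : n = g.natDegree * f.natDegree) (hroot : aeval (aeval θ f) g = 0) (a : Polynomial ℤ) :
    aeval (aeval θ f) a ∈ Submodule.span ℤ (Set.range fun k : Fin n => bvec θ f m k) := by
  have hg1 : g ≠ 1 := by
    intro h
    rw [h, natDegree_one] at he
    exact lt_irrefl _ he
  rw [aeval_eq_aeval_modByMonic _ a g hroot,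
    aeval_eq_sum_range' (natDegree_modByMonic_lt a hg hg1)]
  refine Submodule.sum_mem _ fun i hi => Submodule.smul_mem _ _ ?_
  rw [Finset.mem_range] at hi
  have hlt : i * f.natDegree < n := by
    rw [hn]
    exact Nat.mul_lt_mul_of_pos_right hi hd
  refine Submodule.subset_span ⟨⟨i * f.natDegree, hlt⟩, ?_⟩
  simp only [bvec]
  rw [if_pos (Dvd.intro_left i rfl), Nat.mul_div_cancel _ hd, map_pow]

theorem mul_pow_mem_span (θ : K) (f : Polynomial ℤ) (m : ℤ) (n : ℕ) (hf : f.Monic)
    (hd : 0 < f.natDegree) (k : ℕ) (hk : k < n) :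
    (m : K) * θ ^ k ∈ Submodule.span ℤ (Set.range fun k : Fin n => bvec θ f m k) := by
  induction k using Nat.strong_induction_on with
  | _ k ih =>
    by_cases hdvd : f.natDegree ∣ k
    · have hb : bvec θ f m k ∈ Submodule.span ℤ (Set.range fun k : Fin n => bvec θ f m k) :=
        Submodule.subset_span ⟨⟨k, hk⟩, rfl⟩
      have hbv : bvec θ f m k = aeval θ (f ^ (k / f.natDegree)) := by
        simp only [bvec]; rw [if_pos hdvd]
      rcases Nat.eq_zero_or_pos k with hk0 | hkpos
      · subst hk0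
        have h1 : bvec θ f m 0 = 1 := by
          rw [hbv]; simp
        have h2 : (m : K) * θ ^ 0 = m • bvec θ f m 0 := by
          rw [h1]; simp
        rw [h2]
        exact Submodule.smul_mem _ _ hb
      · set a := k / f.natDegree with ha
        have hka : a * f.natDegree = k := Nat.div_mul_cancel hdvd
        have hmon : (f ^ a).Monic := hf.pow a
        have hdeg : (f ^ a).natDegree = k := by
          rw [hf.natDegree_pow, hka]
        have hlt : (f ^ a - (Polynomial.X : Polynomial ℤ) ^ k).natDegree < k := by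
          by_cases h0 : f ^ a - (Polynomial.X : Polynomial ℤ) ^ k = 0
          · rw [h0, natDegree_zero]; exact hkpos
          · have h1 : (f ^ a - (Polynomial.X : Polynomial ℤ) ^ k).degree < (f ^ a).degree := by
              apply degree_sub_lt_left
              · rw [degree_eq_natDegree hmon.ne_zero, hdeg, degree_X_pow]
              · exact hmon.ne_zero
              · rw [hmon.leadingCoeff, leadingCoeff_X_pow]
            rw [degree_eq_natDegree hmon.ne_zero, hdeg] at h1
            exact (natDegree_lt_iff_degree_lt h0).mpr h1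
        have h3 : (m : K) * θ ^ k = m • bvec θ f m k -
            ∑ i ∈ Finset.range k, (f ^ a - (Polynomial.X : Polynomial ℤ) ^ k).coeff i • ((m : K) * θ ^ i) := by
          have h4 := aeval_eq_sum_range' hlt θ
          simp only [map_sub, map_pow, aeval_X] at h4
          have h5 : θ ^ k = (aeval θ f) ^ a -
              ∑ i ∈ Finset.range k, (f ^ a - (Polynomial.X : Polynomial ℤ) ^ k).coeff i • θ ^ i := by
            rw [← h4]; ring
          rw [hbv, map_pow, h5, mul_sub, Finset.mul_sum]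
          congr 1
          · simp [zsmul_eq_mul]
          · refine Finset.sum_congr rfl fun i _ => ?_
            simp only [zsmul_eq_mul]
            ring
        rw [h3]
        refine Submodule.sub_mem _ (Submodule.smul_mem _ _ hb) ?_
        refine Submodule.sum_mem _ fun i hi => Submodule.smul_mem _ _ ?_
        rw [Finset.mem_range] at hi
        exact ih i hi (lt_trans hi hk)
    · refine Submodule.subset_span ⟨⟨k, hk⟩, ?_⟩
      simp only [bvec]
      rw [if_neg hdvd]

theorem mul_aeval_mem_span (θ : K) (f h : Polynomial ℤ) (m : ℤ) (n : ℕ) (hf : f.Monic)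
    (hd : 0 < f.natDegree) (hh : h.Monic) (hn : h.natDegree = n) (hn0 : 0 < n)
    (hroot : aeval θ h = 0) (b : Polynomial ℤ) :
    (m : K) * aeval θ b ∈ Submodule.span ℤ (Set.range fun k : Fin n => bvec θ f m k) := by
  have hh1 : h ≠ 1 := by
    intro h1
    rw [h1, natDegree_one] at hn
    omega
  have hlt : (b %ₘ h).natDegree < n := hn ▸ natDegree_modByMonic_lt b hh hh1
  rw [aeval_eq_aeval_modByMonic _ b h hroot, aeval_eq_sum_range' hlt, Finset.mul_sum]
  refine Submodule.sum_mem _ fun i hi => ?_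
  rw [Finset.mem_range] at hi
  have h1 : (m : K) * ((b %ₘ h).coeff i • θ ^ i) = (b %ₘ h).coeff i • ((m : K) * θ ^ i) := by
    simp only [zsmul_eq_mul]; ring
  rw [h1]
  exact Submodule.smul_mem _ _ (mul_pow_mem_span θ f m n hf hd i hi)

/-- The order `ℤ[f(θ)] + m ℤ[θ]` as a subring. -/
def towerOrder (θ : K) (f : Polynomial ℤ) (m : ℤ) : Subring K where
  carrier := {x | ∃ a b : Polynomial ℤ, x = aeval (aeval θ f) a + (m : K) * aeval θ b}
  mul_mem' := by
    rintro x y ⟨a, b, rfl⟩ ⟨a', b', rfl⟩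
    refine ⟨a * a', a.comp f * b' + a'.comp f * b + C m * b * b', ?_⟩
    simp only [map_add, map_mul, aeval_comp, aeval_C, eq_intCast, map_intCast]
    ring
  one_mem' := ⟨1, 0, by simp⟩
  add_mem' := by
    rintro x y ⟨a, b, rfl⟩ ⟨a', b', rfl⟩
    exact ⟨a + a', b + b', by simp only [map_add]; ring⟩
  zero_mem' := ⟨0, 0, by simp⟩
  neg_mem' := by
    rintro x ⟨a, b, rfl⟩
    exact ⟨-a, -b, by simp only [map_neg]; ring⟩

theorem mem_towerOrder (θ : K) (f : Polynomial ℤ) (m : ℤ) (x : K) :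
    x ∈ towerOrder θ f m ↔
      ∃ a b : Polynomial ℤ, x = aeval (aeval θ f) a + (m : K) * aeval θ b := Iff.rfl

theorem bvec_mem_towerOrder (θ : K) (f : Polynomial ℤ) (m : ℤ) (k : ℕ) :
    bvec θ f m k ∈ towerOrder θ f m := by
  rw [mem_towerOrder]
  simp only [bvec]
  by_cases hdvd : f.natDegree ∣ k
  · rw [if_pos hdvd]
    exact ⟨(Polynomial.X : Polynomial ℤ) ^ (k / f.natDegree), 0, by simp⟩
  · rw [if_neg hdvd]
    exact ⟨0, (Polynomial.X : Polynomial ℤ) ^ k, by simp⟩

theorem mem_towerOrder_iff (θ : K) (f g : Polynomial ℤ) (m : ℤ) (n : ℕ) (hf : f.Monic)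
    (hd : 0 < f.natDegree) (hg : g.Monic) (he : 0 < g.natDegree)
    (hn : n = g.natDegree * f.natDegree) (hroot : aeval θ (g.comp f) = 0) (x : K) :
    x ∈ towerOrder θ f m ↔ ∃ c : Fin n → ℤ, x = ∑ j, c j • bvec θ f m j := by
  have hh : (g.comp f).Monic := hg.comp hf hd.ne'
  have hnd : (g.comp f).natDegree = n := by rw [natDegree_comp, hn]
  have hn0 : 0 < n := by rw [hn]; exact Nat.mul_pos he hd
  constructor
  · rintro ⟨a, b, rfl⟩
    have h1 := aeval_beta_mem_span θ f g m n hd hg he hn (by rw [← aeval_comp]; exact hroot) a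
    have h2 := mul_aeval_mem_span θ f (g.comp f) m n hf hd hh hnd hn0 hroot b
    have h3 := Submodule.add_mem _ h1 h2
    rw [Submodule.mem_span_range_iff_exists_fun] at h3
    obtain ⟨c, hc⟩ := h3
    exact ⟨c, hc.symm⟩
  · rintro ⟨c, rfl⟩
    exact Subring.sum_mem _ fun j _ => zsmul_mem (bvec_mem_towerOrder θ f m j) _

theorem beta_mem_towerOrder (θ : K) (f : Polynomial ℤ) (m : ℤ) :
    aeval θ f ∈ towerOrder θ f m :=
  ⟨Polynomial.X, 0, by simp⟩

/-- The monic polynomial of degree `k` attached to the `k`-th basis vector. -/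
noncomputable def upoly (f : Polynomial ℤ) (k : ℕ) : Polynomial ℤ :=
  if f.natDegree ∣ k then f ^ (k / f.natDegree) else (Polynomial.X : Polynomial ℤ) ^ k

theorem upoly_monic (f : Polynomial ℤ) (hf : f.Monic) (k : ℕ) : (upoly f k).Monic := by
  simp only [upoly]
  split_ifs
  · exact hf.pow _
  · exact monic_X_pow k

theorem upoly_natDegree (f : Polynomial ℤ) (hf : f.Monic) (k : ℕ) :
    (upoly f k).natDegree = k := by
  simp only [upoly]
  split_ifs with hdvd
  · rw [hf.natDegree_pow, Nat.div_mul_cancel hdvd]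
  · exact natDegree_X_pow k

theorem bvec_eq (θ : K) (f : Polynomial ℤ) (m : ℤ) (k : ℕ) :
    bvec θ f m k = ((if f.natDegree ∣ k then 1 else m : ℤ) : K) * aeval θ (upoly f k) := by
  simp only [bvec, upoly]
  split_ifs <;> simp

end Span

section Discr

variable {K : Type} [Field K] [NumberField K]

theorem discr_pow_ne_zero (θ : K) (h : Polynomial ℤ) (hh : h.Monic)
    (hirr : Irreducible (h.map (Int.castRingHom ℚ))) (hroot : aeval θ h = 0) (n : ℕ)
    (hn : h.natDegree = n) (hfin : Module.finrank ℚ K = n) :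
    Algebra.discr ℚ (fun k : Fin n => θ ^ (k : ℕ)) ≠ 0 := by
  have hroot' : aeval θ (h.map (Int.castRingHom ℚ)) = 0 := by
    have h1 := aeval_map_algebraMap (R := ℤ) (A := ℚ) θ h
    rw [algebraMap_int_eq] at h1
    rw [h1, hroot]
  have hmin : h.map (Int.castRingHom ℚ) = minpoly ℚ θ :=
    minpoly.eq_of_irreducible_of_monic hirr hroot' (hh.map _)
  have hdeg : (minpoly ℚ θ).natDegree = n := by
    rw [← hmin, hh.natDegree_map, hn]
  subst hdeg
  have li := linearIndependent_pow (K := ℚ) θ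
  haveI : Nonempty (Fin (minpoly ℚ θ).natDegree) :=
    ⟨⟨0, minpoly.natDegree_pos (Algebra.IsIntegral.isIntegral θ)⟩⟩
  have hB := coe_basisOfLinearIndependentOfCardEqFinrank li (by simp [hfin])
  rw [← hB]
  exact Algebra.discr_not_zero_of_basis ℚ _

theorem discr_bvec (θ : K) (f : Polynomial ℤ) (hf : f.Monic) (m : ℤ) (n : ℕ) :
    Algebra.discr ℚ (fun k : Fin n => bvec θ f m k) =
      (∏ k : Fin n, ((if f.natDegree ∣ (k : ℕ) then 1 else m : ℤ) : ℚ)) ^ 2 *
        Algebra.discr ℚ (fun k : Fin n => θ ^ (k : ℕ)) := by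
  let U : Matrix (Fin n) (Fin n) ℚ := fun k j => ((upoly f k).coeff j : ℚ)
  let Pm : Matrix (Fin n) (Fin n) ℚ :=
    Matrix.diagonal fun k => ((if f.natDegree ∣ (k : ℕ) then 1 else m : ℤ) : ℚ)
  have hvec : (fun k : Fin n => bvec θ f m k) =
      ((Pm * U).map (algebraMap ℚ K)).mulVec (fun k : Fin n => θ ^ (k : ℕ)) := by
    have hent : ∀ k j : Fin n, (Pm * U) k j =
        ((if f.natDegree ∣ (k : ℕ) then 1 else m : ℤ) : ℚ) * ((upoly f k).coeff j : ℚ) :=
      fun k j => Matrix.diagonal_mul _ _ _ _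
    funext k
    rw [bvec_eq, Matrix.mulVec, dotProduct,
      aeval_eq_sum_range' (n := n) (by rw [upoly_natDegree f hf]; exact k.2),
      ← Fin.sum_univ_eq_sum_range (fun j => (upoly f k).coeff j • θ ^ j) n, Finset.mul_sum]
    refine Finset.sum_congr rfl fun j _ => ?_
    rw [Matrix.map_apply, hent, map_mul, map_intCast, map_intCast, zsmul_eq_mul]
    ring
  rw [hvec, Algebra.discr_of_matrix_mulVec, Matrix.det_mul, Matrix.det_diagonal]
  have hU : U.det = 1 := by
    rw [Matrix.det_of_isLowerTriangular]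
    · apply Finset.prod_eq_one
      intro k _
      show ((upoly f k).coeff k : ℚ) = 1
      have h1 := (upoly_monic f hf k).coeff_natDegree
      rw [upoly_natDegree f hf] at h1
      rw [h1]; simp
    · intro i j hij
      show ((upoly f i).coeff j : ℚ) = 0
      rw [coeff_eq_zero_of_natDegree_lt (by rw [upoly_natDegree f hf]; exact hij)]
      simp
  rw [hU, mul_one]

theorem prod_cm_ge (f : Polynomial ℤ) (hd : 2 ≤ f.natDegree) (n : ℕ) (hn : 2 ≤ n) (m : ℕ)
    (hm : 1 ≤ m) :
    (m : ℚ) ≤ (∏ k : Fin n, ((if f.natDegree ∣ (k : ℕ) then 1 else (m : ℤ) : ℤ) : ℚ)) ^ 2 := by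
  have h1 : (∏ k : Fin n, ((if f.natDegree ∣ (k : ℕ) then 1 else (m : ℤ) : ℤ) : ℚ)) =
      (m : ℚ) ^ (Finset.univ.filter fun k : Fin n => ¬ f.natDegree ∣ (k : ℕ)).card := by
    have h2 : ∀ k : Fin n, ((if f.natDegree ∣ (k : ℕ) then 1 else (m : ℤ) : ℤ) : ℚ) =
        if f.natDegree ∣ (k : ℕ) then (1 : ℚ) else (m : ℚ) := by
      intro k; split_ifs <;> simp
    simp only [h2]
    rw [Finset.prod_ite, Finset.prod_const_one, one_mul, Finset.prod_const]
  rw [h1, ← pow_mul]
  have hcard : 1 ≤ (Finset.univ.filter fun k : Fin n => ¬ f.natDegree ∣ (k : ℕ)).card := by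
    rw [Nat.one_le_iff_ne_zero, Finset.card_ne_zero]
    refine ⟨⟨1, by omega⟩, ?_⟩
    rw [Finset.mem_filter]
    refine ⟨Finset.mem_univ _, ?_⟩
    show ¬ f.natDegree ∣ 1
    rw [Nat.dvd_one]
    omega
  have hm' : (1 : ℚ) ≤ (m : ℚ) := by exact_mod_cast hm
  calc (m : ℚ) = (m : ℚ) ^ 1 := (pow_one _).symm
    _ ≤ (m : ℚ) ^ ((Finset.univ.filter fun k : Fin n => ¬ f.natDegree ∣ (k : ℕ)).card * 2) :=
        pow_le_pow_right₀ hm' (by omega)

end Discr

section Assembly

open Filter

theorem exists_tower_sequence (f g : Polynomial ℤ) (hf : f.Monic) (hg : g.Monic)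
    (hd : 2 ≤ f.natDegree) (he : 1 ≤ g.natDegree) (n : ℕ) (hn : n = g.natDegree * f.natDegree)
    (hirr : Irreducible ((g.comp f).map (Int.castRingHom ℚ)))
    (ρ : Fin n → ℝ) (hρ : Function.Injective ρ) (hρ0 : ∀ k, aeval (ρ k) (g.comp f) = 0) :
    ∃ D : ℕ → OrderDatum n, (∀ i, ∃ r ∈ (D i).O, aeval r g = 0) ∧
      Tendsto (fun i => |Algebra.discr ℚ (D i).basis|) atTop atTop := by
  haveI : Fact (Irreducible ((g.comp f).map (Int.castRingHom ℚ))) := ⟨hirr⟩
  have hh : (g.comp f).Monic := hg.comp hf (by omega)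
  have hnd : (g.comp f).natDegree = n := by rw [natDegree_comp, hn]
  have hθ : aeval (AdjoinRoot.root ((g.comp f).map (Int.castRingHom ℚ))) (g.comp f) = 0 := by
    have h1 := AdjoinRoot.eval₂_root ((g.comp f).map (Int.castRingHom ℚ))
    rw [eval₂_map] at h1
    have e1 : algebraMap ℤ (AdjoinRoot ((g.comp f).map (Int.castRingHom ℚ))) =
        (AdjoinRoot.of ((g.comp f).map (Int.castRingHom ℚ))).comp (Int.castRingHom ℚ) :=
      RingHom.ext_int _ _
    rw [aeval_def, e1]
    exact h1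
  have hfin : Module.finrank ℚ (AdjoinRoot ((g.comp f).map (Int.castRingHom ℚ))) = n := by
    have h1 := (AdjoinRoot.powerBasis hirr.ne_zero).finrank
    rw [AdjoinRoot.powerBasis_dim, hh.natDegree_map, hnd] at h1
    convert h1
  have hσ0 : ∀ k, eval₂ (algebraMap ℚ ℝ) (ρ k) ((g.comp f).map (Int.castRingHom ℚ)) = 0 := by
    intro k
    have e2 : (algebraMap ℚ ℝ).comp (Int.castRingHom ℚ) = algebraMap ℤ ℝ :=
      RingHom.ext_int _ _
    rw [eval₂_map, e2, ← aeval_def]
    exact hρ0 k
  have hσinj : Function.Injective (fun k : Fin n =>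
      AdjoinRoot.lift (algebraMap ℚ ℝ) (ρ k) (hσ0 k)) := by
    intro j k hjk
    apply hρ
    have h1 := congrArg (fun φ : AdjoinRoot ((g.comp f).map (Int.castRingHom ℚ)) →+* ℝ =>
      φ (AdjoinRoot.root ((g.comp f).map (Int.castRingHom ℚ)))) hjk
    simpa [AdjoinRoot.lift_root] using h1
  have hdisc0 := discr_pow_ne_zero (AdjoinRoot.root ((g.comp f).map (Int.castRingHom ℚ)))
    (g.comp f) hh hirr hθ n hnd hfin
  have hn2 : 2 ≤ n := by rw [hn]; nlinarith
  have hdiscm : ∀ i : ℕ, Algebra.discr ℚ (fun k : Fin n =>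
      bvec (AdjoinRoot.root ((g.comp f).map (Int.castRingHom ℚ))) f ((i + 1 : ℕ) : ℤ) k) ≠ 0 := by
    intro i
    rw [discr_bvec _ f hf]
    refine mul_ne_zero ?_ hdisc0
    have h1 := prod_cm_ge f hd n hn2 (i + 1) (by omega)
    have h2 : (0 : ℚ) < ((i + 1 : ℕ) : ℚ) := by positivity
    exact (lt_of_lt_of_le h2 h1).ne'
  refine ⟨fun i =>
    { K := AdjoinRoot ((g.comp f).map (Int.castRingHom ℚ))
      finrank_eq := hfin
      σ := fun k => AdjoinRoot.lift (algebraMap ℚ ℝ) (ρ k) (hσ0 k)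
      σ_injective := hσinj
      O := towerOrder (AdjoinRoot.root ((g.comp f).map (Int.castRingHom ℚ))) f ((i + 1 : ℕ) : ℤ)
      basis := fun k =>
        bvec (AdjoinRoot.root ((g.comp f).map (Int.castRingHom ℚ))) f ((i + 1 : ℕ) : ℤ) k
      basis_indep := by
        have li : LinearIndependent ℚ (fun k : Fin n =>
            bvec (AdjoinRoot.root ((g.comp f).map (Int.castRingHom ℚ))) f ((i + 1 : ℕ) : ℤ) k) := by
          by_contra hli
          exact hdiscm i (Algebra.discr_zero_of_not_linearIndependent ℚ hli)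
        exact li.restrict_scalars (smul_left_injective ℤ (one_ne_zero (α := ℚ)))
      mem_O_iff := mem_towerOrder_iff _ f g _ n hf (by omega) hg (by omega) hn hθ }, ?_, ?_⟩
  · intro i
    exact ⟨aeval (AdjoinRoot.root ((g.comp f).map (Int.castRingHom ℚ))) f,
      beta_mem_towerOrder _ f _, (aeval_comp _).symm.trans hθ⟩
  · have hc : 0 < |Algebra.discr ℚ (fun k : Fin n =>
        (AdjoinRoot.root ((g.comp f).map (Int.castRingHom ℚ))) ^ (k : ℕ))| := abs_pos.mpr hdisc0
    have hbound : ∀ i : ℕ, ((i + 1 : ℕ) : ℚ) * |Algebra.discr ℚ (fun k : Fin n =>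
        (AdjoinRoot.root ((g.comp f).map (Int.castRingHom ℚ))) ^ (k : ℕ))| ≤
        |Algebra.discr ℚ (fun k : Fin n =>
          bvec (AdjoinRoot.root ((g.comp f).map (Int.castRingHom ℚ))) f ((i + 1 : ℕ) : ℤ) k)| := by
      intro i
      rw [discr_bvec _ f hf, abs_mul, abs_pow, sq_abs]
      exact mul_le_mul_of_nonneg_right (prod_cm_ge f hd n hn2 (i + 1) (by omega)) (abs_nonneg _)
    refine tendsto_atTop_mono hbound ?_
    exact Tendsto.atTop_mul_const hc
      (tendsto_natCast_atTop_atTop.comp (tendsto_add_atTop_nat 1))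

end Assembly

end Vale.Agent.Lib.P007
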