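import Vale.Agent.Lib.P007.Null

namespace Vale.Agent.Lib.P007

open Matrix MeasureTheory Topology Filter

/-- The trapping set attached to a polynomial `P`: lattices stable under some diagonal matrix
whose entries are real roots of `P`. -/
def trapSet (n : ℕ) (P : Polynomial ℤ) : Set (X n) :=
  ⋃ d ∈ {d : Fin n → ℝ | ∀ j, d j ∈ P.rootSet ℝ}, stab (diagonal d)

theorem finite_rootVectors (n : ℕ) (P : Polynomial ℤ) :
    {d : Fin n → ℝ | ∀ j, d j ∈ P.rootSet ℝ}.Finite :=
  Set.Finite.pi' (fun _ => P.rootSet_finite ℝ)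

theorem isClosed_trapSet (n : ℕ) (P : Polynomial ℤ) : IsClosed (trapSet n P) :=
  Set.Finite.isClosed_biUnion (finite_rootVectors n P) (fun d _ => isClosed_stab _)

theorem stab_scalar_eq_empty {n : ℕ} (hn : 0 < n) (P : Polynomial ℤ)
    (hP : ∀ z : ℤ, P.eval z ≠ 0) (d : Fin n → ℝ) (hd : ∀ j, d j ∈ P.rootSet ℝ)
    (hsc : ∀ p q, d p = d q) : stab (diagonal d) = ∅ := by
  rw [Set.eq_empty_iff_forall_notMem]
  intro x hx
  obtain ⟨g, rfl⟩ := cls_surjective n x
  rw [cls_mem_stab_iff] at hx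
  obtain ⟨B, hB⟩ := hx
  have hdiag : diagonal d = d ⟨0, hn⟩ • (1 : Matrix (Fin n) (Fin n) ℝ) := by
    ext i j
    by_cases hij : i = j
    · subst hij; simp [hsc i ⟨0, hn⟩]
    · simp [hij]
  rw [hdiag, Matrix.mul_smul, Matrix.mul_one] at hB
  have hB2 : d ⟨0, hn⟩ • (1 : Matrix (Fin n) (Fin n) ℝ) = B.map (Int.castRingHom ℝ) := by
    have h1 := congrArg (fun M : Matrix (Fin n) (Fin n) ℝ => M *
      ((g⁻¹ : Matrix.SpecialLinearGroup (Fin n) ℝ) : Matrix (Fin n) (Fin n) ℝ)) hB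
    simp only [Matrix.smul_mul, Matrix.mul_assoc, coe_mul_coe_inv, Matrix.mul_one] at h1
    exact h1
  have hentry : d ⟨0, hn⟩ = ((B ⟨0, hn⟩ ⟨0, hn⟩ : ℤ) : ℝ) := by
    have h1 := congrFun (congrFun hB2 ⟨0, hn⟩) ⟨0, hn⟩
    simpa using h1
  have hroot := hd ⟨0, hn⟩
  rw [Polynomial.mem_rootSet] at hroot
  have h2 : Polynomial.aeval (d ⟨0, hn⟩) P = ((P.eval (B ⟨0, hn⟩ ⟨0, hn⟩) : ℤ) : ℝ) := by
    rw [hentry]
    have h3 := Polynomial.aeval_algebraMap_apply_eq_algebraMap_eval (A := ℝ)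
      (B ⟨0, hn⟩ ⟨0, hn⟩) P
    simpa using h3
  rw [hroot.2] at h2
  exact hP (B ⟨0, hn⟩ ⟨0, hn⟩) (by exact_mod_cast h2.symm)

theorem measure_trapSet {n : ℕ} (hn : 0 < n) (P : Polynomial ℤ) (hP : ∀ z : ℤ, P.eval z ≠ 0)
    (m : Measure (X n)) [IsProbabilityMeasure m]
    (hinv : ∀ h : Matrix.SpecialLinearGroup (Fin n) ℝ, Measure.map (rightMul h) m = m) :
    m (trapSet n P) = 0 := by
  rw [trapSet, measure_biUnion_null_iff (finite_rootVectors n P).countable]
  intro d hd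
  by_cases h : ∃ p q, d p ≠ d q
  · obtain ⟨p, q, hpq⟩ := h
    exact measure_stab_diagonal_null m hinv d p q hpq
  · push Not at h
    rw [stab_scalar_eq_empty hn P hP d hd h, measure_empty]

theorem packetSupport_subset_trapSet {n : ℕ} (P : Polynomial ℤ) (hP0 : P ≠ 0) (D : OrderDatum n)
    (hr : ∃ r ∈ D.O, Polynomial.aeval r P = 0) : packetSupport D ⊆ trapSet n P := by
  rintro x ⟨g, I, c, w, u, rfl, hI, -, -, -, hL⟩
  obtain ⟨r, hrO, hrP⟩ := hr
  refine Set.mem_biUnion (x := fun j => D.σ j r) ?_ ?_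
  · intro j
    rw [Polynomial.mem_rootSet]
    refine ⟨hP0, ?_⟩
    have h1 := Polynomial.aeval_algHom_apply ((D.σ j).toIntAlgHom) r P
    rw [hrP, map_zero] at h1
    exact h1
  · rw [cls_mem_stab_iff]
    have hrow : ∀ i : Fin n, ∃ y ∈ I, (g : Matrix (Fin n) (Fin n) ℝ) i =
        fun j => c * D.σ j y * w j * Real.exp (u j) := by
      intro i
      have hmem : (g : Matrix (Fin n) (Fin n) ℝ) i ∈ rowLattice g := by
        refine ⟨Pi.single i 1, ?_⟩
        ext j
        simp [Matrix.vecMul, dotProduct, Pi.single_apply]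
      rw [hL] at hmem
      exact hmem
    choose y hyI hy using hrow
    have hmul : ∀ i, r * y i ∈ I := fun i => hI.1 r hrO (y i) (hyI i)
    have hvec : ∀ i, ∃ v : Fin n → ℤ,
        Matrix.vecMul (fun j => (v j : ℝ)) (g : Matrix (Fin n) (Fin n) ℝ) =
          fun j => c * D.σ j (r * y i) * w j * Real.exp (u j) := by
      intro i
      have h1 : (fun j => c * D.σ j (r * y i) * w j * Real.exp (u j)) ∈ rowLattice g := by
        rw [hL]
        exact ⟨r * y i, hmul i, rfl⟩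
      obtain ⟨v, hv⟩ := h1
      exact ⟨v, hv⟩
    choose v hv using hvec
    refine ⟨Matrix.of v, ?_⟩
    ext i j
    rw [Matrix.mul_diagonal]
    have h1 : ((Matrix.of v).map (Int.castRingHom ℝ) * (g : Matrix (Fin n) (Fin n) ℝ)) i j =
        Matrix.vecMul (fun k => (v i k : ℝ)) (g : Matrix (Fin n) (Fin n) ℝ) j := by
      simp [Matrix.mul_apply, Matrix.vecMul, dotProduct]
    rw [h1, hv i]
    have h2 := congrFun (hy i) j
    rw [h2]
    show _ = c * D.σ j (r * y i) * w j * Real.exp (u j)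
    rw [map_mul]
    ring

theorem no_vague_convergence {n : ℕ} (P : Polynomial ℤ) (hP0 : P ≠ 0)
    (hP : ∀ z : ℤ, P.eval z ≠ 0) (D : ℕ → OrderDatum n)
    (hD : ∀ i, ∃ r ∈ (D i).O, Polynomial.aeval r P = 0)
    (μ : ℕ → Measure (X n)) (m : Measure (X n))
    (hμ : ∀ i, ∀ᵐ x ∂(μ i), x ∈ packetSupport (D i))
    (hm : IsProbabilityMeasure m)
    (hinv : ∀ h : Matrix.SpecialLinearGroup (Fin n) ℝ, Measure.map (rightMul h) m = m) :
    ¬ ∀ f : X n → ℝ, Continuous f → HasCompactSupport f →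
      Tendsto (fun i => ∫ x, f x ∂(μ i)) atTop (𝓝 (∫ x, f x ∂m)) := by
  intro hconv
  have hn : 0 < n := by
    have h1 := (D 0).finrank_eq
    have hpos : 0 < Module.finrank ℚ (D 0).K := Module.finrank_pos
    omega
  have hYc : IsClosed (trapSet n P) := isClosed_trapSet n P
  have hY0 : m (trapSet n P) = 0 := measure_trapSet hn P hP m hinv
  have hYcompl : m (trapSet n P)ᶜ = 1 := by
    rw [measure_compl hYc.measurableSet (measure_ne_top _ _), hY0, measure_univ, tsub_zero]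
  obtain ⟨C, hCsub, hCcomp, hCpos⟩ := hYc.isOpen_compl.exists_lt_isCompact
    (show (0 : ENNReal) < m (trapSet n P)ᶜ by rw [hYcompl]; exact one_pos)
  obtain ⟨f, hf1, hf0, hfc, hf01⟩ := exists_continuous_one_zero_of_isCompact hCcomp hYc
    (Set.disjoint_left.mpr fun x hx hxY => hCsub hx hxY)
  have key := hconv f f.continuous hfc
  have hzero : ∀ i, ∫ x, f x ∂(μ i) = 0 := by
    intro i
    apply integral_eq_zero_of_ae
    filter_upwards [hμ i] with x hx
    exact hf0 (packetSupport_subset_trapSet P hP0 (D i) (hD i) hx)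
  simp only [hzero] at key
  have hpos : 0 < ∫ x, f x ∂m := by
    rw [integral_pos_iff_support_of_nonneg (fun x => (hf01 x).1)
      (f.continuous.integrable_of_hasCompactSupport hfc)]
    refine lt_of_lt_of_le hCpos (measure_mono ?_)
    intro x hx
    rw [Function.mem_support, hf1 hx]
    exact one_ne_zero
  have h3 := tendsto_nhds_unique key tendsto_const_nhds
  linarith

end Vale.Agent.Lib.P007
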